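import Vale.Agent.P352X.R.RES.Alg.Data

/-!
# P352X, row ALG.1
-/

set_option linter.all false

namespace Vale.Agent.P352X.RS

open Alg

theorem alg1_row : ALG1 := by
  refine ⟨?_, so_H, ?_⟩
  · rw [S0_eq]; exact deg_dd (degC 4 _ ck_deg.2.2.2.2.2.2)
  · rw [S0_eq, om_dd _ so_H, ev_H, ztC _ ck_H, mul_zero]

end Vale.Agent.P352X.RS
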