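import Vale.Agent.P352X.R.RES.Alg1

/-!
# P352X, row ALG.2
-/

set_option linter.all false

namespace Vale.Agent.P352X.RS

open Alg
open MvPolynomial (C)

namespace Alg

theorem det4 {R : Type} [CommRing R] (A : Matrix (Fin 4) (Fin 4) R) : A.det =
    A 0 0 * (A 1 1 * A 2 2 * A 3 3 - A 1 1 * A 2 3 * A 3 2 - A 1 2 * A 2 1 * A 3 3 +
      A 1 2 * A 2 3 * A 3 1 + A 1 3 * A 2 1 * A 3 2 - A 1 3 * A 2 2 * A 3 1) -
    A 0 1 * (A 1 0 * A 2 2 * A 3 3 - A 1 0 * A 2 3 * A 3 2 - A 1 2 * A 2 0 * A 3 3 +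
      A 1 2 * A 2 3 * A 3 0 + A 1 3 * A 2 0 * A 3 2 - A 1 3 * A 2 2 * A 3 0) +
    A 0 2 * (A 1 0 * A 2 1 * A 3 3 - A 1 0 * A 2 3 * A 3 1 - A 1 1 * A 2 0 * A 3 3 +
      A 1 1 * A 2 3 * A 3 0 + A 1 3 * A 2 0 * A 3 1 - A 1 3 * A 2 1 * A 3 0) -
    A 0 3 * (A 1 0 * A 2 1 * A 3 2 - A 1 0 * A 2 2 * A 3 1 - A 1 1 * A 2 0 * A 3 2 +
      A 1 1 * A 2 2 * A 3 0 + A 1 2 * A 2 0 * A 3 1 - A 1 2 * A 2 1 * A 3 0) := by
  rw [Matrix.det_succ_row_zero]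
  simp only [Fin.sum_univ_four, Matrix.det_fin_three, Matrix.submatrix_apply]
  simp [Fin.succAbove]
  ring

theorem ev_D : ev gG pD = 0 := by
  have h := det_gram
  rw [Matrix.det_succ_row_zero] at h
  simp only [Fin.sum_univ_five, det4, Matrix.submatrix_apply, Matrix.of_apply] at h
  simp [Fin.succAbove] at h
  simp only [dot_comm 1 0, dot_comm 2 0, dot_comm 3 0, dot_comm 4 0, dot_comm 2 1, dot_comm 3 1,
    dot_comm 4 1, dot_comm 3 2, dot_comm 4 2, dot_comm 4 3] at h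
  simp only [pD, ev_cons, ev_nil, mo_cons, mo_nil, gG, q00, q01, q02, q03, q04, q11, q12, q13,
    q14, q22, q23, q24, q33, q34, q44]
  push_cast
  linear_combination h

theorem cN : (C (1 / 129600 : ℂ) : P20) * 129600 = 1 := by
  rw [show (129600 : P20) = C 129600 from rfl, ← map_mul]; norm_num

end Alg

theorem alg2_row : ALG2 := by
  obtain ⟨g1, g2, g3, g4, g5, g6, -⟩ := ck_deg
  have hx : C (1 / 129600 : ℂ) * ev gG pX3 + d3 (C (1 / 129600 : ℂ) * ev gG pZ3) =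
      C (1 / 129600 : ℂ) * ev gG (Alg.ap pX3 (dh 2 4 pZ3)) := by
    rw [d3_eq, Dh_C, ev_dh, ev_ap, mul_add]
  refine ⟨2, ![wA, wB], ![C (1 / 129600) * (dotP 0 0 * dotP 2 2 * ev gC pA),
    C (1 / 129600) * (dotP 0 0 * dotP 2 2 * ev gC pB)], C (1 / 129600) * ev gG pX3,
    C (1 / 129600) * ev gG pZ3, C (1 / 129600) * ev gG pX2, C (1 / 129600) * ev gG pZ2, ?_,
    deg_C _ (degG _ _ g1), deg_C _ (degG _ _ g2), deg_C _ (degG _ _ g3), deg_C _ (degG _ _ g4),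
    ?_, ?_, ?_, ?_, ?_, ?_⟩
  · intro i
    fin_cases i
    · exact ⟨so_A, deg_C _ (deg_dd (degC _ _ g5))⟩
    · exact ⟨so_B, deg_C _ (deg_dd (degC _ _ g6))⟩
  · have h := ztG _ ck_eq
    rw [ev_ap, ev_ap _ (sc _ _), ev_sc, ev_ap _ (dh 1 3 _)] at h
    rw [hx, d2_eq, Dh_C, Dh_C, ev_dh, ev_dh]
    push_cast at h
    linear_combination C (1 / 129600 : ℂ) * h
  · rw [box3_eq, DD_C, ev_dd, ztG _ ck_b3, mul_zero]
  · rw [dd3_eq, DD_C, DD_C, ev_dd, ev_dd, ztG _ ck_d3, mul_zero]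
  · have h := ztG _ ck_b2
    rw [ev_ap, ev_ap, ev_ap] at h
    rw [box2_eq, DD_C, DD_C, DD_C, DD_C, ev_dd, ev_dd, ev_dd, ev_dd]
    linear_combination C (1 / 129600 : ℂ) * h
  · have h := ztG _ ck_d2
    rw [ev_ap] at h
    rw [dd2_eq, DD_C, DD_C, ev_dd, ev_dd, ← mul_add, ← ev_ap, DD_C, DD_C, ev_dd, ev_dd]
    linear_combination C (1 / 129600 : ℂ) * h
  · have h1 := ztC _ ck_om
    rw [ev_ap, ev_sc, ev_sc, ev_ap, ev_ap, ← ev_A, ← ev_B, ← ev_tr] at h1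
    have h2 := ztG _ ck_T
    rw [ev_ap, ev_cm, ev_cm, ev_sc, ev_ap] at h2
    have h3 := ztG _ ck_sy
    rw [ev_ap, ev_sc, ev_D, mul_zero, add_zero, ← ev_sy] at h3
    have h4 : S0 - ∑ i, om (![wA, wB] i) (![C (1 / 129600) * (dotP 0 0 * dotP 2 2 * ev gC pA),
        C (1 / 129600) * (dotP 0 0 * dotP 2 2 * ev gC pB)] i) -
        d1 (C (1 / 129600 : ℂ) * ev gG (Alg.ap pX3 (dh 2 4 pZ3))) =
        C (1 / 129600 : ℂ) * ev gG pT := by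
      rw [Fin.sum_univ_two, d1_eq, Dh_C, ev_dh, S0_eq]
      simp only [Matrix.cons_val_zero, Matrix.cons_val_one, om_C, om_dd _ so_A, om_dd _ so_B]
      simp only [gG] at h2
      push_cast at h1 h2
      linear_combination C (1 / 129600 : ℂ) * (dotP 0 0 * dotP 2 2) * h1 +
        C (1 / 129600 : ℂ) * h2 - dotP 0 0 * dotP 2 2 * ev gC s0 * cN
    rw [hx, h4, sym6_C, h3, mul_zero]

end Vale.Agent.P352X.RS
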