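import Vale.Agent.P352X.R.RES.Spec

/-!
# P352X, row RES.coc: calculus (linear vector fields, cutoffs)
-/

set_option linter.all false

open Filter Topology
open scoped ContDiff

namespace Vale.Agent.P352X.RS.Coc

open Vale.Agent.P352 Vale.Agent.P352.GF Vale.Agent.P352.H755

noncomputable section

section gen

variable {E E' : Type*} [NormedAddCommGroup E] [NormedSpace ℝ E] [NormedAddCommGroup E']
  [NormedSpace ℝ E'] {F G : E → ℂ}

lemma dc_diff (h : Dc F) : Differentiable ℝ F := h.1.differentiable (by simp)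

lemma dc_cx {f : E → ℝ} (h : Tst f) : Dc (cx f) :=
  ⟨Complex.ofRealCLM.contDiff.comp h.1, h.2.comp_left (g := fun x : ℝ => (x : ℂ)) (by simp)⟩

lemma dc_zero : Dc fun _ : E => (0 : ℂ) := ⟨contDiff_const, HasCompactSupport.zero⟩

lemma dc_lin (h : Dc F) (a : ℂ) (h' : Dc G) : Dc fun x => F x + a * G x :=
  ⟨h.1.add (contDiff_const.mul h'.1), h.2.add (h'.2.mul_left (f := fun _ => a))⟩

lemma dc_fderiv (h : Dc F) {X : E → E} (hX : ContDiff ℝ ∞ X) : Dc fun x => fderiv ℝ F x (X x) := by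
  refine ⟨(h.1.fderiv_right (m := ∞) le_rfl).clm_apply hX, ?_⟩
  refine HasCompactSupport.intro h.2 fun x hx => ?_
  rw [notMem_tsupport_iff_eventuallyEq] at hx
  rw [hx.fderiv_eq]
  simp

lemma dc_Ef (h : Dc F) : Dc (Ef F) := dc_fderiv h contDiff_id

lemma dc_comp (h : Dc F) (σ : E →L[ℝ] E) (hσ : ∀ x, σ (σ x) = x) : Dc fun x => F (σ x) :=
  ⟨h.1.comp σ.contDiff, HasCompactSupport.intro
    ((ContinuousLinearEquiv.equivOfInverse σ σ hσ hσ).toHomeomorph.isCompact_preimage.2 h.2)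
    fun _ hx => image_eq_zero_of_notMem_tsupport hx⟩

lemma dc_tens {G : E' → ℂ} (h : Dc F) (h' : Dc G) : Dc fun z : E × E' => F z.1 * G z.2 := by
  refine ⟨(h.1.comp contDiff_fst).mul (h'.1.comp contDiff_snd),
    HasCompactSupport.intro (h.2.prod h'.2) fun z hz => ?_⟩
  rw [Set.mem_prod, not_and_or] at hz
  rcases hz with hz | hz
  · rw [image_eq_zero_of_notMem_tsupport hz, zero_mul]
  · rw [image_eq_zero_of_notMem_tsupport hz, mul_zero]

lemma fderiv_lin (h : Dc F) (a : ℂ) (h' : Dc G) (x v : E) :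
    fderiv ℝ (fun x => F x + a * G x) x v = fderiv ℝ F x v + a * fderiv ℝ G x v := by
  rw [((dc_diff h x).hasFDerivAt.fun_add ((dc_diff h' x).hasFDerivAt.const_mul a)).fderiv]
  simp

lemma Ef_lin (h : Dc F) (a : ℂ) (h' : Dc G) :
    Ef (fun x => F x + a * G x) = fun x => Ef F x + a * Ef G x :=
  funext fun x => fderiv_lin h a h' x x

lemma fderiv_comp_clm (h : Differentiable ℝ F) (σ : E' →L[ℝ] E) (x v : E') :
    fderiv ℝ (fun x => F (σ x)) x v = fderiv ℝ F (σ x) (σ v) := by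
  have h1 : HasFDerivAt (fun x => F (σ x)) _ x := (h (σ x)).hasFDerivAt.comp x σ.hasFDerivAt
  rw [h1.fderiv]
  rfl

lemma Ef_comp (h : Differentiable ℝ F) (σ : E' →L[ℝ] E) :
    Ef (fun x => F (σ x)) = fun x => Ef F (σ x) :=
  funext fun x => fderiv_comp_clm h σ x x

/-- the derivative of an affine vector field applied to a function -/
lemma fderiv_vf (h : Dc F) (A : E →L[ℝ] E) (a x v : E) :
    fderiv ℝ (fun y => fderiv ℝ F y (A y + a)) x v =
      fderiv ℝ (fderiv ℝ F) x v (A x + a) + fderiv ℝ F x (A v) := by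
  have h1 : DifferentiableAt ℝ (fderiv ℝ F) x :=
    (h.1.fderiv_right (m := ∞) le_rfl).differentiable (by simp) x
  have h2 : HasFDerivAt (fun y => A y + a) A x := A.hasFDerivAt.add_const a
  rw [(h1.hasFDerivAt.clm_apply h2).fderiv]
  simp [add_comm]

lemma snd_symm (h : Dc F) (x v w : E) :
    fderiv ℝ (fderiv ℝ F) x v w = fderiv ℝ (fderiv ℝ F) x w v :=
  (h.1.contDiffAt.isSymmSndFDerivAt (by
    simp only [minSmoothness_of_isRCLikeNormedField]
    exact WithTop.coe_le_coe.2 (le_top : ((2 : ℕ) : ℕ∞) ≤ ⊤))).eq v w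

/-- the Euler operator commutes with linear vector fields -/
lemma Ef_vf (h : Dc F) (A : E →L[ℝ] E) :
    Ef (fun y => fderiv ℝ F y (A y)) = fun x => fderiv ℝ (Ef F) x (A x) := by
  funext x
  have h1 := fderiv_vf h A 0 x x
  have h2 := fderiv_vf h (ContinuousLinearMap.id ℝ E) 0 x (A x)
  simp only [add_zero, ContinuousLinearMap.id_apply] at h1 h2
  show fderiv ℝ (fun y => fderiv ℝ F y (A y)) x x = fderiv ℝ (fun y => fderiv ℝ F y y) x (A x)
  rw [h1, h2, snd_symm h]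

/-- the Euler operator and constant vector fields -/
lemma Ef_const (h : Dc F) (a : E) : (fun x => fderiv ℝ (Ef F) x a) =
    fun x => Ef (fun y => fderiv ℝ F y a) x + 1 * fderiv ℝ F x a := by
  funext x
  have h1 := fderiv_vf h 0 a x x
  have h2 := fderiv_vf h (ContinuousLinearMap.id ℝ E) 0 x a
  simp only [add_zero, zero_add, ContinuousLinearMap.id_apply, ContinuousLinearMap.zero_apply,
    map_zero] at h1 h2
  show fderiv ℝ (fun y => fderiv ℝ F y y) x a = fderiv ℝ (fun y => fderiv ℝ F y a) x x + _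
  rw [h1, h2, snd_symm h, one_mul]

lemma fderiv_ev {x : E} {κ : ℂ} (h : ∀ᶠ z in 𝓝 x, F z = κ) (X : E → E) :
    ∀ᶠ z in 𝓝 x, fderiv ℝ F z (X z) = 0 := by
  have h1 : F =ᶠ[𝓝 x] fun _ => κ := h
  filter_upwards [h1.fderiv (𝕜 := ℝ)] with z hz
  rw [hz]
  simp

lemma Ef_congr {x : E} (h : ∀ᶠ z in 𝓝 x, F z = G z) : ∀ᶠ z in 𝓝 x, Ef F z = Ef G z := by
  have h1 : F =ᶠ[𝓝 x] G := h
  filter_upwards [h1.fderiv (𝕜 := ℝ)] with z hz
  unfold Ef
  rw [hz]

lemma ev_comp {κ : ℂ} (h : ∀ᶠ z in 𝓝 (0 : E), F z = κ) (σ : E' →L[ℝ] E) :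
    ∀ᶠ z in 𝓝 (0 : E'), F (σ z) = κ := by
  have h1 : Tendsto σ (𝓝 0) (𝓝 0) := by
    have := σ.continuous.tendsto 0
    rwa [map_zero] at this
  exact h1.eventually h

lemma cut_neg {θ : E → ℝ} (h : Cut θ) : Cut fun x => θ (-x) := by
  refine ⟨⟨h.1.1.comp contDiff_neg, h.1.2.comp_homeomorph (Homeomorph.neg E)⟩, ?_⟩
  have h1 : Tendsto (fun x : E => -x) (𝓝 0) (𝓝 0) := by
    have := (continuous_neg (G := E)).tendsto 0
    rwa [neg_zero] at this
  exact h1.eventually h.2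

end gen

/-- a cutoff which is one on the ball of radius `r` and vanishes outside the ball of radius
`2 r` -/
lemma exists_cut (r : ℝ) (hr : 0 < r) : ∃ θ : V → ℝ, Cut θ ∧ (∀ x, ‖x‖ < r → θ x = 1) ∧
    (∀ x, 2 * r < ‖x‖ → θ x = 0) ∧ tsupport θ ⊆ Metric.closedBall 0 (2 * r) := by
  let b : ContDiffBump (0 : V) := ⟨r, 2 * r, hr, by linarith⟩
  have h1 : ∀ x : V, ‖x‖ < r → b x = 1 := fun x hx =>
    b.one_of_mem_closedBall (by simpa using hx.le)
  refine ⟨b, ⟨⟨b.contDiff, b.hasCompactSupport⟩, ?_⟩, h1, fun x hx => ?_, ?_⟩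
  · filter_upwards [Metric.ball_mem_nhds (0 : V) hr] with x hx
    exact h1 x (by simpa using hx)
  · exact b.zero_of_le_dist (by simpa using hx.le)
  · rw [b.tsupport_eq]

/-- the linear map of `Xf` -/
def AX (w : Ix → V) : V × V →L[ℝ] V × V :=
  LinearMap.toContinuousLinearMap
    { toFun := fun z => (sim 1 w 0 z.1, sim 1 w 0 z.2)
      map_add' := fun x y => by
        ext n <;> simp [sim, add_mul, Finset.sum_add_distrib]
      map_smul' := fun a x => by
        ext n <;> simp [sim, Finset.mul_sum, mul_assoc] }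

lemma Xf_eq (w : Ix → V) (φ : V × V → ℂ) : Xf w φ = fun z => fderiv ℝ φ z (AX w z) := rfl

def σ12 : V × V →L[ℝ] V × V :=
  (-ContinuousLinearMap.fst ℝ V V).prod (ContinuousLinearMap.snd ℝ V V - ContinuousLinearMap.fst ℝ V V)

def σ13 : V × V →L[ℝ] V × V :=
  (ContinuousLinearMap.snd ℝ V V).prod (ContinuousLinearMap.fst ℝ V V)

def σ23 : V × V →L[ℝ] V × V :=
  (ContinuousLinearMap.fst ℝ V V - ContinuousLinearMap.snd ℝ V V).prod (-ContinuousLinearMap.snd ℝ V V)

lemma σ12_apply (z : V × V) : σ12 z = (-z.1, z.2 - z.1) := rfl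
lemma σ13_apply (z : V × V) : σ13 z = (z.2, z.1) := rfl
lemma σ23_apply (z : V × V) : σ23 z = (z.1 - z.2, -z.2) := rfl

lemma σ12_inv (z : V × V) : σ12 (σ12 z) = z := by simp [σ12_apply]
lemma σ13_inv (z : V × V) : σ13 (σ13 z) = z := by simp [σ13_apply]
lemma σ23_inv (z : V × V) : σ23 (σ23 z) = z := by simp [σ23_apply]

lemma σ23_eq (z : V × V) : σ12 (σ13 (σ12 z)) = σ23 z := by
  simp only [σ12_apply, σ13_apply, σ23_apply]
  ext1 <;> simp only <;> abel

end

end Vale.Agent.P352X.RS.Coc
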