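import Vale.Agent.P352X.R.RES.CocA
import Vale.Agent.P352X.R.RES.CocB

/-!
# P352X, row RES.coc: the residue of the source vanishes
-/

set_option linter.all false

open Filter Topology
open scoped ContDiff
open MvPolynomial (X C pderiv aeval)

namespace Vale.Agent.P352X.RS.Coc

open Vale.Agent.P352 Vale.Agent.P352.GF Vale.Agent.P352.H755

noncomputable section

variable {Λ : (V × V → ℂ) → P20 → ℂ} {φ ψ Θ Θ' : V × V → ℂ} {κ : ℂ}

lemma lam_addS (R : RD0 Λ) (h : Dc φ) (S T : P20) : Λ φ (S + T) = Λ φ S + Λ φ T := by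
  simpa using R.linS φ 1 S T h

lemma lam_zeroS (R : RD0 Λ) (h : Dc φ) : Λ φ 0 = 0 := by
  have h1 := lam_addS R h 0 0
  rw [add_zero] at h1
  linear_combination -h1

lemma lam_subS (R : RD0 Λ) (h : Dc φ) (S T : P20) : Λ φ (S - T) = Λ φ S - Λ φ T := by
  have h1 := lam_addS R h (S - T) T
  rw [sub_add_cancel] at h1
  linear_combination -h1

lemma lam_sumS (R : RD0 Λ) (h : Dc φ) {ι : Type*} (s : Finset ι) (S : ι → P20) :
    Λ φ (∑ i ∈ s, S i) = ∑ i ∈ s, Λ φ (S i) := by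
  classical
  induction s using Finset.induction_on with
  | empty => simpa using lam_zeroS R h
  | insert i s hi ih => rw [Finset.sum_insert hi, Finset.sum_insert hi, lam_addS R h, ih]

lemma not_mem {x : V × V} (h : ∀ᶠ z in 𝓝 x, φ z = 0) : x ∉ tsupport φ :=
  notMem_tsupport_iff_eventuallyEq.2 h

/-- the residue vanishes on functions that vanish near the origin -/
lemma res_zero (R : RD0 Λ) (h : Dc φ) (h0 : ∀ᶠ z in 𝓝 (0 : V × V), φ z = 0) {S : P20}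
    (hS : Deg 4 S) : Λ (Ef φ) S = 0 := by
  rw [R.hom φ 4 S h (not_mem h0) hS]
  norm_num

/-- the residue does not depend on the cutoff -/
lemma res_ind (R : RD0 Λ) (h : Dc Θ) (h' : Dc Θ') (h0 : ∀ᶠ z in 𝓝 (0 : V × V), Θ z = κ)
    (h1 : ∀ᶠ z in 𝓝 (0 : V × V), Θ' z = 1) {S : P20} (hS : Deg 4 S) :
    Λ (Ef Θ) S = κ * Λ (Ef Θ') S := by
  have h2 := res_zero R (dc_lin h (-κ) h') (by
    filter_upwards [h0, h1] with z a b
    rw [a, b]
    ring) hS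
  rw [Ef_lin h _ h', R.lin _ _ _ _ (dc_Ef h) (dc_Ef h')] at h2
  linear_combination h2

lemma res_s12 (R : RD0 Λ) (h : Dc Θ) (h1 : ∀ᶠ z in 𝓝 (0 : V × V), Θ z = 1) {S : P20}
    (hS : Deg 4 S) : Λ (Ef Θ) (s12 S) = Λ (Ef Θ) S := by
  have h2 := res_ind R (dc_comp h σ12 σ12_inv) h (ev_comp h1 σ12) h1 (deg_s12 hS)
  rw [Ef_comp (dc_diff h), one_mul] at h2
  rw [← h2]
  exact R.s12 _ S (dc_Ef h)

lemma res_s13 (R : RD0 Λ) (h : Dc Θ) (h1 : ∀ᶠ z in 𝓝 (0 : V × V), Θ z = 1) {S : P20}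
    (hS : Deg 4 S) : Λ (Ef Θ) (s13 S) = Λ (Ef Θ) S := by
  have h2 := res_ind R (dc_comp h σ13 σ13_inv) h (ev_comp h1 σ13) h1 (deg_s13 hS)
  rw [Ef_comp (dc_diff h), one_mul] at h2
  rw [← h2]
  exact R.s13 _ S (dc_Ef h)

lemma res_sym (R : RD0 Λ) (h : Dc Θ) (h1 : ∀ᶠ z in 𝓝 (0 : V × V), Θ z = 1) {S : P20}
    (hS : Deg 4 S) : Λ (Ef Θ) (sym6 S) = 6 * Λ (Ef Θ) S := by
  have hE := dc_Ef h
  unfold sym6
  simp only [lam_addS R hE]
  rw [res_s12 R h h1 (deg_s13 (deg_s12 hS)), res_s13 R h h1 (deg_s12 hS),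
    res_s12 R h h1 (deg_s13 hS), res_s12 R h h1 hS, res_s13 R h h1 hS]
  ring

lemma res_om (R : RD0 Λ) (h : Dc Θ) (h1 : ∀ᶠ z in 𝓝 (0 : V × V), Θ z = 1) {w : Ix → V}
    (hw : So w) {S : P20} (hS : Deg 4 S) : Λ (Ef Θ) (om w S) = 0 := by
  have h2 := R.inv w (Ef Θ) S hw (dc_Ef h)
  have h3 := res_zero R (dc_fderiv h (AX w).contDiff) (fderiv_ev h1 _) hS
  rw [Ef_vf h] at h3
  rw [Xf_eq, h3, zero_add] at h2
  exact h2

lemma dc_du (h : Dc φ) (m : Ix) : Dc (du m φ) := dc_fderiv h contDiff_const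

lemma res_d1 (R : RD0 Λ) (h : Dc Θ) (h1 : ∀ᶠ z in 𝓝 (0 : V × V), Θ z = 1) {Ξ : P20}
    (hΞ : Deg 5 Ξ) : Λ (Ef Θ) (d1 Ξ) = Div Λ (Ef Θ) Ξ := by
  unfold Div
  rw [Finset.sum_eq_zero, add_zero]
  intro m _
  have h2 : du m (Ef Θ) = fun x => Ef (du m Θ) x + 1 * du m Θ x := Ef_const h _
  rw [h2, R.lin _ _ _ _ (dc_Ef (dc_du h m)) (dc_du h m),
    R.hom _ 5 _ (dc_du h m) (not_mem (fderiv_ev h1 _)) (deg_X0 m hΞ)]
  push_cast
  ring

lemma div_lin (R : RD0 Λ) (h : Dc φ) (a : ℂ) (h' : Dc ψ) (Ξ : P20) :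
    Div Λ (fun z => φ z + a * ψ z) Ξ = Div Λ φ Ξ + a * Div Λ ψ Ξ := by
  unfold Div
  have h1 : ∀ m, Λ (du m fun z => φ z + a * ψ z) (X (0, m) * Ξ) =
      Λ (du m φ) (X (0, m) * Ξ) + a * Λ (du m ψ) (X (0, m) * Ξ) := by
    intro m
    have h2 : (du m fun z => φ z + a * ψ z) = fun z => du m φ z + a * du m ψ z :=
      funext fun z => fderiv_lin h a h' z _
    rw [h2, R.lin _ _ _ _ (dc_du h m) (dc_du h' m)]
  rw [R.lin _ _ _ _ h h', Finset.sum_congr rfl fun m _ => h1 m, Finset.sum_add_distrib,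
    ← Finset.mul_sum]
  ring

lemma lam_s23 (R : RD0 Λ) (h : Dc φ) (S : P20) : Λ (fun z => φ (σ23 z)) (s23 S) = Λ φ S := by
  have h1 := dc_comp h σ12 σ12_inv
  have h2 := dc_comp h1 σ13 σ13_inv
  have e1 := R.s12 φ S h
  have e2 := R.s13 _ (s12 S) h1
  have e3 := R.s12 _ (s13 (s12 S)) h2
  rw [s23_eq, ← e1]
  refine Eq.trans ?_ e2
  refine Eq.trans ?_ e3
  congr 1
  funext z
  rw [← σ23_eq]
  rfl

lemma div_s23 (R : RD0 Λ) (h : Dc φ) (Ξ : P20) :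
    Div Λ (fun z => φ (σ23 z)) (s23 Ξ) = Div Λ φ Ξ := by
  unfold Div
  rw [d1_s23, lam_s23 R h]
  congr 1
  refine Finset.sum_congr rfl fun m _ => ?_
  have h2 : (du m fun z => φ (σ23 z)) = fun z => du m φ (σ23 z) := by
    funext z
    unfold du
    rw [fderiv_comp_clm (dc_diff h)]
    simp [σ23_apply]
  rw [h2, ← lam_s23 R (dc_du h m), map_mul, s23_X0]

lemma s23_s23 (S : P20) : s23 (s23 S) = S := by
  have h : s23.comp s23 = AlgHom.id ℂ P20 := by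
    refine MvPolynomial.algHom_ext fun i => ?_
    obtain ⟨j, m⟩ := i
    fin_cases j <;> simp [s23]
  exact AlgHom.congr_fun h S

/-- a cutoff on which the divergence vanishes -/
lemma exists_div (R : RD0 Λ) (hC : DIVC Λ) (hA : DIVA Λ) : ∃ Θ : V × V → ℂ, Dc Θ ∧
    (∀ᶠ z in 𝓝 (0 : V × V), Θ z = 1) ∧ ∀ Ξ3 ζ3 Ξ2 ζ2 : P20, Deg 5 Ξ3 → Deg 6 ζ3 → Deg 5 Ξ2 →
      Deg 6 ζ2 → Ξ3 + d3 ζ3 = Ξ2 + RS.d2 ζ2 → box3 Ξ3 = 0 → dd3 Ξ3 = 0 → box2 Ξ2 = 0 →
      dd2 Ξ2 = 0 → Div Λ (Ef Θ) (Ξ3 + d3 ζ3) = 0 := by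
  obtain ⟨θ, hθ, hθ1, hθ0, -⟩ := exists_cut 1 one_pos
  obtain ⟨th, hth, hth1, -, -⟩ := exists_cut 4 (by norm_num)
  obtain ⟨ε1, hε1, hA1⟩ := hA θ hθ
  obtain ⟨ε2, hε2, hA2⟩ := hA _ (cut_neg hθ)
  obtain ⟨r, hr⟩ : ∃ r : ℝ, r = min (min ε1 ε2) 1 / 4 := ⟨_, rfl⟩
  have hr0 : 0 < r := by
    rw [hr]
    positivity
  have hr1 : 4 * r ≤ ε1 := by
    have := (min_le_left (min ε1 ε2) 1).trans (min_le_left ε1 ε2)
    linarith
  have hr2 : 4 * r ≤ ε2 := by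
    have := (min_le_left (min ε1 ε2) 1).trans (min_le_right ε1 ε2)
    linarith
  have hr3 : 4 * r ≤ 1 := by
    have := min_le_right (min ε1 ε2) 1
    linarith
  obtain ⟨χ, hχ, hχ1, hχ0, hχs⟩ := exists_cut r hr0
  have dθ : Dc (cx θ) := dc_cx hθ.1
  have dθ' : Dc (cx fun x => θ (-x)) := dc_cx (cut_neg hθ).1
  have dχ : Dc (cx χ) := dc_cx hχ.1
  have dΘ : Dc fun z : V × V => cx th z.1 * cx θ z.2 := dc_tens (dc_cx hth.1) dθ
  have d1' : Dc fun z : V × V => (χ z.1 : ℂ) * Ef (cx θ) z.2 := dc_tens dχ (dc_Ef dθ)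
  have d2' : Dc fun z : V × V => (χ z.1 : ℂ) * Ef (cx fun x => θ (-x)) z.2 :=
    dc_tens dχ (dc_Ef dθ')
  have d3' := dc_comp d2' σ23 σ23_inv
  have hneg : ∀ v : V, Ef (cx fun x => θ (-x)) (-v) = Ef (cx θ) v := by
    intro v
    have h1 := congrFun (Ef_comp (dc_diff dθ) (-ContinuousLinearMap.id ℝ V)) (-v)
    simp only [ContinuousLinearMap.neg_apply, ContinuousLinearMap.id_apply, neg_neg] at h1
    exact h1
  have hopen : ∀ (f : V × V → ℝ) (a : ℝ) (x : V × V), Continuous f → f x < a →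
      ∀ᶠ z in 𝓝 x, f z < a := fun f a x hf hx => hf.continuousAt.eventually_lt_const hx
  have hopen' : ∀ (f : V × V → ℝ) (a : ℝ) (x : V × V), Continuous f → a < f x →
      ∀ᶠ z in 𝓝 x, a < f z := fun f a x hf hx => hf.continuousAt.eventually_const_lt hx
  have hE1 : ∀ v : V, ‖v‖ < 1 → Ef (cx θ) v = 0 := by
    intro v hv
    have h1 : ∀ᶠ y in 𝓝 v, cx θ y = 1 := by
      filter_upwards [continuous_norm.continuousAt.eventually_lt_const hv] with y hy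
      simp [cx, hθ1 y hy]
    exact (fderiv_ev h1 id).self_of_nhds
  have hE0 : ∀ v : V, 2 * 1 < ‖v‖ → Ef (cx θ) v = 0 := by
    intro v hv
    have h1 : ∀ᶠ y in 𝓝 v, cx θ y = 0 := by
      filter_upwards [continuous_norm.continuousAt.eventually_const_lt hv] with y hy
      simp [cx, hθ0 y hy]
    exact (fderiv_ev h1 id).self_of_nhds
  have hEa : ∀ x : V × V, ‖x.1‖ < 4 →
      Ef (fun z : V × V => cx th z.1 * cx θ z.2) x = Ef (cx θ) x.2 := by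
    intro x hx
    have h1 : ∀ᶠ z in 𝓝 x, cx th z.1 * cx θ z.2 = cx θ (ContinuousLinearMap.snd ℝ V V z) := by
      filter_upwards [hopen (fun z => ‖z.1‖) 4 x (by fun_prop) hx] with z hz
      simp [cx, hth1 _ hz]
    rw [(Ef_congr h1).self_of_nhds, Ef_comp (dc_diff dθ)]
    rfl
  have hEb : ∀ x : V × V, 2 * 1 < ‖x.2‖ →
      Ef (fun z : V × V => cx th z.1 * cx θ z.2) x = 0 := by
    intro x hx
    have h1 : ∀ᶠ z in 𝓝 x, cx th z.1 * cx θ z.2 = 0 := by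
      filter_upwards [hopen' (fun z => ‖z.2‖) _ x (by fun_prop) hx] with z hz
      simp [cx, hθ0 _ hz]
    exact (fderiv_ev h1 id).self_of_nhds
  refine ⟨_, dΘ, ?_, fun Ξ3 ζ3 Ξ2 ζ2 g1 g2 g3 g4 he b3 e3 b2 e2 => ?_⟩
  · filter_upwards [hopen (fun z => ‖z.1‖) 4 0 (by fun_prop) (by simp),
      hopen (fun z => ‖z.2‖) 1 0 (by fun_prop) (by simp)] with z h1 h2
    simp [cx, hth1 _ h1, hθ1 _ h2]
  have k1 := hA1 χ hχ (hχs.trans (Metric.closedBall_subset_ball (by linarith))) Ξ3 ζ3 g1 g2 b3 e3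
  have k2 := hA2 χ hχ (hχs.trans (Metric.closedBall_subset_ball (by linarith))) (s23 Ξ2) (s23 ζ2)
    (deg_s23 g3) (deg_s23 g4) (by rw [box3_s23, b2, map_zero]) (by rw [dd3_s23, e2, map_zero])
  rw [d3_s23, ← map_add, ← he, ← div_s23 R d2', s23_s23] at k2
  have k3 := hC _ (Ξ3 + d3 ζ3) (dc_lin (dc_lin (dc_Ef dΘ) (-1) d1') (-1) d3') (by
    intro x hx
    by_contra hcon
    refine not_mem ?_ hx
    simp only [σ23_apply, hneg]
    simp only [Set.mem_setOf_eq, not_and_or, not_not] at hcon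
    rcases hcon with h0 | h0
    · rcases lt_or_ge ‖x.2‖ 1 with hv | hv
      · filter_upwards [hopen (fun z => ‖z.1‖) 4 x (by fun_prop) (by simp [h0]),
          hopen (fun z => ‖z.2‖) 1 x (by fun_prop) hv] with z h1 h2
        rw [hEa z h1, hE1 _ h2]
        ring
      · filter_upwards [hopen (fun z => ‖z.1‖) r x (by fun_prop) (by simp [h0, hr0]),
          hopen' (fun z => ‖z.1 - z.2‖) (2 * r) x (by fun_prop) (by
            simp only [h0, zero_sub, norm_neg]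
            linarith)] with z h1 h2
        rw [hEa z (by linarith), hχ1 _ h1, hχ0 _ h2]
        push_cast
        ring
    · rcases lt_or_ge ‖x.2‖ 1 with hv | hv
      · filter_upwards [hopen (fun z => ‖z.1‖) 4 x (by fun_prop) (by
            simp only [h0]
            linarith), hopen (fun z => ‖z.2‖) 1 x (by fun_prop) hv] with z h1 h2
        rw [hEa z h1, hE1 _ h2]
        ring
      · rcases lt_or_ge ‖x.2‖ 4 with hv' | hv'
        · filter_upwards [hopen (fun z => ‖z.1‖) 4 x (by fun_prop) (by simp only [h0, hv']),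
            hopen' (fun z => ‖z.1‖) (2 * r) x (by fun_prop) (by
              simp only [h0]
              linarith),
            hopen (fun z => ‖z.1 - z.2‖) r x (by fun_prop) (by simp [h0, hr0])] with z h1 h2 h3
          rw [hEa z h1, hχ0 _ h2, hχ1 _ h3]
          push_cast
          ring
        · filter_upwards [hopen' (fun z => ‖z.2‖) (2 * 1) x (by fun_prop) (by
            show 2 * 1 < ‖x.2‖
            linarith)] with z h1
          rw [hEb z h1, hE0 _ h1]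
          ring)
  rw [div_lin R (dc_lin (dc_Ef dΘ) (-1) d1') _ d3', div_lin R (dc_Ef dΘ) _ d1', k1, k2] at k3
  linear_combination k3

end

end Vale.Agent.P352X.RS.Coc

namespace Vale.Agent.P352X.RS

open Coc

/-- **row RES.coc** -/
theorem coc_row : COC := by
  rintro Λ R hC hA ⟨g0, hH, h0⟩
    ⟨n, w, S, Ξ3, ζ3, Ξ2, ζ2, hw, g1, g2, g3, g4, he, b3, e3, b2, e2, hs⟩ Θ κ hΘ hκ
  obtain ⟨Θ1, d1', h1, hdiv⟩ := exists_div R hC hA
  have hE := dc_Ef d1'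
  have g5 : Deg 5 (Ξ3 + d3 ζ3) := deg_add g1 (deg_d3 g2)
  have k1 := res_sym R d1' h1 (deg_sub (deg_sub g0 (deg_sum Finset.univ fun i _ =>
    deg_om (w i) (hw i).2)) (deg_d1 g5))
  rw [hs, lam_zeroS R hE, lam_subS R hE, lam_subS R hE, lam_sumS R hE,
    Finset.sum_eq_zero fun i _ => res_om R d1' h1 (hw i).1 (hw i).2, res_d1 R d1' h1 g5,
    hdiv Ξ3 ζ3 Ξ2 ζ2 g1 g2 g3 g4 he b3 e3 b2 e2] at k1
  have k2 := res_ind R hΘ d1' hκ h1 g0
  have k3 := R.inv wH Θ S0 hH hΘ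
  rw [h0, lam_zeroS R hΘ] at k3
  have k4 := R.lin (Ef Θ) (Xf wH Θ) (-1) S0 (dc_Ef hΘ) (dc_fderiv hΘ (AX wH).contDiff)
  have k5 : (fun z => Ef Θ z - Xf wH Θ z) = fun z => Ef Θ z + -1 * Xf wH Θ z := by
    funext z
    ring
  rw [k5, k4, k2]
  linear_combination (-κ / 6) * k1 - k3

end Vale.Agent.P352X.RS
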