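import Vale.Agent.P352X.R.RES.DvD

/-!
# P352X, block RES: row `diva`
-/

set_option linter.all false

open MeasureTheory Filter Topology Metric
open scoped ContDiff SchwartzMap

namespace Vale.Agent.P352X.RS

open Vale.Agent.P352 Vale.Agent.P352.GF Vale.Agent.P352.H755
open MvPolynomial (pderiv)
open Api4 Red Dva

/-- row RES.diva -/
theorem diva_row {D : Type*} [NormedAddCommGroup D] [InnerProductSpace ℂ D] (c : Ctx D) [Fact c.tp] :
    T3 c → ∀ ρ0, Tst ρ0 → ∫ x, ρ0 x = 1 → DIVA (Lam c ρ0) := by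
  intro t ρ0 h h1 θ hθ
  obtain ⟨r0, r0p, hr0⟩ := Metric.eventually_nhds_iff_ball.1 hθ.2
  obtain ⟨R, hR⟩ := hθ.1.2.isCompact.isBounded.subset_ball_lt 1 0
  have hr : 0 < min (r0 / 2) 1 := by positivity
  obtain ⟨a, ha⟩ := ex_cf hr ((min_le_right _ _).trans_lt hR.1)
  set O := {v : V | min (r0 / 2) 1 < ‖v‖ ∧ ‖v‖ < R}
  have hc := Api4.dc_cx hθ.1
  have hO : tsupport (fderiv ℝ (cx θ)) ⊆ O := fun v hv => ⟨by_contra fun k => by
    refine notMem_tsupport_iff_eventuallyEq.2 ?_ hv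
    have : cx θ =ᶠ[𝓝 v] fun _ => 1 := by
      filter_upwards [isOpen_ball.mem_nhds (mem_ball_zero_iff.2 ((not_lt.1 k).trans_lt
        ((min_le_left _ _).trans_lt (half_lt_self r0p))))] with y hy
      simp [cx, hr0 y hy]
    exact this.fderiv.trans (.of_forall fun y => by simp), mem_ball_zero_iff.1 (hR.2
      (tsupport_comp_subset (g := Complex.ofReal) rfl θ (tsupport_fderiv_subset ℝ hv)))⟩
  obtain ⟨κ, hκ⟩ := Mu_pair t.gff ha hc hO
  obtain ⟨k0, π, hπ⟩ := ex_ovl t c.hTP.tp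
  refine ⟨_, ha.pos, fun χ hχ sχ Ξ ζ a1 a2 a3 a4 => ?_⟩
  have hS : Nl 5 (Ξ + d3 ζ) := ⟨Ξ, ζ, a1, a2, a3, a4, rfl⟩
  generalize Ξ + d3 ζ = S at hS
  have hE : Dc (Ef (cx θ)) := dc_fderiv hc contDiff_id
  have hφ : Dc fun z : V × V => (χ z.1 : ℂ) * Ef (cx θ) z.2 := dc_tens (Api4.dc_cx hχ.1) hE
  have dm := fun S => dc_mul hφ (ev8_smooth S)
  have g : ∀ n J K S, D3 c n J K (red3 (sch (cx ρ0)) (sch fun z : V × V =>
      (χ z.1 : ℂ) * Ef (cx θ) z.2 * ev8 S z)) = ∑ k ∈ Finset.range (k0 + 1), ∑ γ,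
        (k.factorial : ℂ)⁻¹ * Mu a (π n J K.1 K.2 k γ)
          (sch fun v => Ef (cx θ) v * evp (w4 (dU k γ S)) v) := fun n J K S => by
    rw [glue t hπ (by
      rw [coe_sch (Api4.dc_cx h)]
      exact (integral_complex_ofReal (f := ρ0)).trans (by rw [h1]; rfl))
      ((isOpen_lt continuous_const continuous_norm).inter
        (isOpen_lt continuous_norm continuous_const))
      (by linarith [min_le_right (r0 / 2) 1]) ha n J K _ (by rw [coe_sch (dm S)]; exact (dm S).2)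
      (by
        rw [coe_sch (dm S)]
        exact tsupport_mul_subset_left.trans ((closure_minimal (fun z (hz : _ * _ ≠ 0) =>
          Set.mk_mem_prod (subset_tsupport _ fun e => hz (by simp [e]))
            (subset_tsupport _ (right_ne_zero_of_mul hz)))
          ((isClosed_tsupport χ).prod (isClosed_tsupport (Ef (cx θ))))).trans
            (Set.prod_mono sχ ((ts_vec _ id).trans hO)))), RR_app]
    refine Finset.sum_congr rfl fun k _ => Finset.sum_congr rfl fun γ _ => ?_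
    congr 2
    refine (sch_eq _ fun v => ?_).symm
    rw [rs_app, coe_sch (dm S), ev_w4, ← iter_ev8, ← d0, ← d0_mul γ (m := fun u => ev8 S (u, v))
      ((ev8_smooth S).comp (contDiff_id.prodMk contDiff_const)), d0, d0,
      (EventuallyEq.iteratedFDeriv ℝ (hχ.2.mono fun u hu => ?_) k).eq_of_nhds]
    simp [hu]
  rw [div_eq c h hφ]
  simp only [g]
  refine mul_eq_zero_of_right _ (Finset.sum_eq_zero fun n _ => Finset.sum_eq_zero fun J _ => ?_)
  rw [Finset.sum_comm]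
  refine Finset.sum_eq_zero fun k _ => ?_
  rw [Finset.sum_comm]
  refine Finset.sum_eq_zero fun γ _ => ?_
  rw [← Finset.mul_sum]
  refine mul_eq_zero_of_right _ ?_
  rcases lt_or_ge 5 k with hk | hk
  · simp [hπ.zero _ _ _ _ _ _ hk]
  have n1 : Nl (5 - k) (dU k γ (pderiv (0, n) (dp 1 J S))) :=
    Nl.dU ((Nat.sub_add_cancel hk).symm ▸ ((hS.pd (by decide) _ rfl).pd (by decide) _ rfl).pd
      (by decide) _ rfl) γ
  have e : ∀ K, dU k γ (d5 n J K S) = dp 2 K (dU k γ (pderiv (0, n) (dp 1 J S))) := fun K => by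
    rw [d5, dp_comm, dp, pd_comm, pd_comm (0, n), dU_pd, dU_pd]
    rfl
  simp only [e, hκ _ _ _ ((hπ.ov n J k γ).hom _ _) (w4_deg (dp_deg n1.deg (j := 2) (by decide) _)),
    ← Finset.mul_sum, null t.null (hπ.ov n J k γ) n1, mul_zero]

end Vale.Agent.P352X.RS
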