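import Vale.Agent.P352X.R.RES.Red
import Vale.Agent.P352X.R.STRUCT
import Vale.Agent.P352X.Api2b

/-!
# P352X, block RES: row `divc`
-/

set_option linter.all false

open MeasureTheory Filter Topology Set Metric
open scoped SchwartzMap ContDiff LineDeriv

namespace Vale.Agent.P352X.RS

open Vale.Agent.P352 Vale.Agent.P352.GF Vale.Agent.P352.H755
open MvPolynomial (C X pderiv)
open UniformSpace (Completion)

noncomputable section

namespace Dvc

open Red

variable {D : Type*} [NormedAddCommGroup D] [InnerProductSpace ℂ D] (c : Ctx D)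

/-- the divergence in the first slot -/
def dv3 (n : Ix) (J K : I2) : S3 →L[ℂ] ℂ :=
  ∑ m, c.t (m, n) J K ∘L LineDeriv.lineDerivOpCLM ℂ S3 ((bas m 1, 0) : V × V × V)

theorem dv3_apply (n : Ix) (J K : I2) (F : S3) :
    dv3 c n J K F = ∑ m, c.t (m, n) J K (∂_{((bas m 1, 0) : V × V × V)} F) := by
  simp [dv3]

theorem d_tens (m : Ix) (f : Sch) (G : S2) :
    ∂_{((bas m 1, 0) : V × V × V)} (ST.tens f G) = ST.tens (∂_{(bas m 1 : V)} f) G := by
  ext ⟨x, y⟩
  simp [SchwartzMap.lineDerivOp_apply, lineDeriv]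

theorem dv3_tens (n : Ix) (J K : I2) (f : Sch) (G : S2) : dv3 c n J K (ST.tens f G) =
    ∑ m, c.t (m, n) J K (ST.tens (∂_{(bas m 1 : V)} f) G) := by
  simp only [dv3_apply, d_tens]

theorem cons0 (n : Ix) (f : Sch) :
    ∑ m, ((c.T m n (ev (∂_{(bas m 1 : V)} f)) c.Q.vac : D) : Completion D) = 0 := by
  rw [← Str.coe_sum]
  have := c.hT.conserved n (ev f) c.Q.vac ⟨f, rfl⟩
  simp only [Grp.pd_ev] at this
  rw [this, Completion.coe_zero]

theorem cons1 (n : Ix) (f : Sch) :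
    ∑ m, ((c.T m n (bar (ev (∂_{(bas m 1 : V)} f))) c.Q.vac : D) : Completion D) = 0 := by
  rw [← Str.coe_sum]
  have h := c.hT.conserved n (bar (ev f)) c.Q.vac (Ap.test_bar ⟨f, rfl⟩)
  have e : ∀ m, pd m (bar (ev f)) = bar (ev (∂_{(bas m 1 : V)} f)) := fun m => by
    rw [← Grp.pd_ev, ← Ap.dv_bas, ← Ap.dv_bas]
    funext x
    exact Ap.dv_bar f.differentiableAt _
  simp only [e] at h
  rw [h, Completion.coe_zero]

theorem late_mono {A A' B B' : Set V} (h : Late A B) (ha : A' ⊆ A) (hb : B' ⊆ B) : Late A' B' :=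
  fun x hx y hy => h x (ha hx) y (hb hy)

theorem pr_tens (g k : Sch) : Prod.fst '' tsupport (ST.tens g k) ∪
    Prod.snd '' tsupport (ST.tens g k) ⊆ tsupport g ∪ tsupport k := by
  rintro _ (⟨z, hz, rfl⟩ | ⟨z, hz, rfl⟩)
  exacts [.inl (ST.tsupport_tens g k hz).1, .inr (ST.tsupport_tens g k hz).2]

theorem sd (m : Ix) (f : Sch) : tsupport (∂_{(bas m 1 : V)} f : Sch) ⊆ tsupport f :=
  SchwartzMap.tsupport_lineDerivOp_subset (bas m 1 : V) f

variable {n : Ix} {J K : I2} {f g k : Sch}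

/-- the first point is the latest -/
theorem z1 [Fact c.tp] {G : S2} (h : Late (tsupport f) (Prod.fst '' tsupport G ∪ Prod.snd '' tsupport G)) :
    dv3 c n J K (ST.tens f G) = 0 := by
  rw [dv3_tens, Finset.sum_congr rfl fun m _ => c.hTP.fac1 (m, n) J K _ G _ (fun _ _ _ => rfl)
    (late_mono h (sd m f) subset_rfl), ← sum_inner, cons1, inner_zero_left]

/-- the first point is the earliest -/
theorem z2 [Fact c.tp] {G : S2} (h : Late (Prod.fst '' tsupport G ∪ Prod.snd '' tsupport G) (tsupport f)) :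
    dv3 c n J K (ST.tens f G) = 0 := by
  obtain ⟨G', hG'⟩ := Ap.sw_star (Ap.sw_coe G)
  have e : ∀ m, c.t (m, n) J K (ST.tens (∂_{(bas m 1 : V)} f) G) = inner ℂ (c.wm J K G')
      ((c.T m n (ev (∂_{(bas m 1 : V)} f)) c.Q.vac : D) : Completion D) := fun m => by
    let e1 : (V × V × V) ≃L[ℝ] V × V × V := (ContinuousLinearEquiv.prodAssoc ℝ V V V).symm.trans
      (((ContinuousLinearEquiv.prodComm ℝ V V).prodCongr (.refl ℝ V)).trans
        (ContinuousLinearEquiv.prodAssoc ℝ V V V))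
    let e2 : (V × V × V) ≃L[ℝ] V × V × V :=
      (ContinuousLinearEquiv.refl ℝ V).prodCongr (ContinuousLinearEquiv.prodComm ℝ V V)
    let F1 := SchwartzMap.compCLMOfContinuousLinearEquiv ℂ e1 (ST.tens (∂_{(bas m 1 : V)} f) G)
    let F2 := SchwartzMap.compCLMOfContinuousLinearEquiv ℂ e2 F1
    rw [c.hTP.swap1 _ _ _ _ F1 fun _ _ _ => rfl, c.hTP.swap2 _ _ _ _ F2 fun _ _ _ => rfl]
    exact c.hTP.fac3 J K (m, n) G G' _ F2 (fun _ _ _ => mul_comm _ _) (congrFun hG')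
      (late_mono h subset_rfl (sd m f))
  rw [dv3_tens, Finset.sum_congr rfl fun m _ => e m, ← inner_sum, cons0, inner_zero_right]

/-- the second point is the latest -/
theorem z3 [Fact c.tp] (h1 : Late (tsupport g) (tsupport f)) (h2 : Late (tsupport g) (tsupport k))
    (h3 : Disjoint (tsupport f) (tsupport k)) : dv3 c n J K (ST.tens f (ST.tens g k)) = 0 := by
  have e : ∀ m, c.t (m, n) J K (ST.tens (∂_{(bas m 1 : V)} f) (ST.tens g k)) =
      inner ℂ ((c.T J.1 J.2 (bar (ev g)) c.Q.vac : D) : Completion D)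
        (c.wp (m, n) K (∂_{((bas m 1, 0) : V × V)} (ST.tens f k))) := fun m => by
    have e0 : ∂_{((bas m 1, 0) : V × V)} (ST.tens f k) = ST.tens (∂_{(bas m 1 : V)} f) k := by
      ext ⟨x, y⟩
      exact Str.d_tens m f k x y
    rw [e0, c.hTP.swap1 _ _ _ _ (ST.tens g (ST.tens (∂_{(bas m 1 : V)} f) k))
      fun _ _ _ => mul_left_comm _ _ _]
    refine c.hTP.fac1 J (m, n) K g _ _ (fun _ _ _ => rfl) fun x hx y hy => ?_
    rcases pr_tens _ _ hy with hy | hy
    exacts [h1 x hx y (sd m f hy), h2 x hx y hy]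
  have h0 := Str.off c.hT c.hTP.tp n K (ST.tens f k) fun x hx =>
    Set.disjoint_left.1 h3 (ST.tsupport_tens f k hx).1 (ST.tsupport_tens f k hx).2
  rw [Str.dvL_apply, dv1] at h0
  rw [dv3_tens, Finset.sum_congr rfl fun m _ => e m, ← inner_sum, h0, inner_zero_right]

theorem zsw [Fact c.tp] : dv3 c n J K (ST.tens f (ST.tens g k)) = dv3 c n K J (ST.tens f (ST.tens k g)) := by
  rw [dv3_tens, dv3_tens]
  exact Finset.sum_congr rfl fun m _ => c.hTP.swap2 _ _ _ _ _ fun x y z =>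
    congrArg ((∂_{(bas m 1 : V)} f : Sch) x * ·) (mul_comm (k y) (g z))

/-- `y` is not in the causal future of `x` -/
def Lt (x y : V) : Prop := ¬ (0 ≤ (y - x) o ∧ 0 ≤ mdot (y - x) (y - x))

theorem lt_near {x y : V} (h : Lt x y) : ∀ᶠ δ in 𝓝[>] (0 : ℝ), Late (ball x δ) (ball y δ) := by
  have hc : IsClosed {q : V × V | 0 ≤ (q.2 - q.1) o ∧ 0 ≤ mdot (q.2 - q.1) (q.2 - q.1)} := by
    unfold GF.mdot
    refine IsClosed.and (isClosed_le continuous_const ?_) (isClosed_le continuous_const ?_) <;>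
      fun_prop
  obtain ⟨δ, d0, d⟩ := Metric.isOpen_iff.1 hc.isOpen_compl (x, y) h
  filter_upwards [Ioo_mem_nhdsGT d0] with r hr a ha b hb
  exact d (a := (a, b)) (ball_prod_same x y δ ▸
    ⟨ball_subset_ball hr.2.le ha, ball_subset_ball hr.2.le hb⟩)

theorem time_lt {x y : V} (h : x ≠ y) (k : ¬ Lt x y) : x o < y o := by
  obtain ⟨k1, k2⟩ := not_not.1 k
  refine lt_of_le_of_ne (by simpa using k1) fun e => h ?_
  simp [GF.mdot, eta, o, Fin.sum_univ_four] at e k2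
  rw [e] at k2
  funext n
  fin_cases n <;> simp <;> nlinarith [sq_nonneg (y 1 - x 1), sq_nonneg (y 2 - x 2),
    sq_nonneg (y 3 - x 3)]

theorem lt_of_time {x y : V} (h : y o < x o) : Lt x y := fun k => by
  have := k.1
  simp only [Pi.sub_apply] at this
  linarith

theorem dis_near {x y : V} (h : x ≠ y) : ∀ᶠ δ in 𝓝[>] (0 : ℝ), Disjoint (ball x δ) (ball y δ) := by
  filter_upwards [Ioo_mem_nhdsGT (half_pos (dist_pos.2 h))] with r hr
  exact ball_disjoint_ball (by linarith [hr.2])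

/-- the divergence vanishes away from `z1 = z2` and `z1 = z3` -/
theorem off3 [Fact c.tp] (n : Ix) (J K : I2) (F : S3) (hF : ∀ q ∈ tsupport F, q.1 ≠ q.2.1 ∧ q.1 ≠ q.2.2) :
    dv3 c n J K F = 0 := by
  refine ST.ker3_local _ F fun q hq => ?_
  obtain ⟨h2, h3⟩ := hF q hq
  obtain ⟨x, y, z⟩ := q
  simp only at h2 h3 ⊢
  suffices h : ∀ᶠ δ in 𝓝[>] (0 : ℝ), ∀ f g k : Sch, tsupport f ⊆ ball x δ →
      tsupport g ⊆ ball y δ → tsupport k ⊆ ball z δ →
      dv3 c n J K (ST.tens f (ST.tens g k)) = 0 by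
    obtain ⟨δ, h1, h0⟩ := (h.and self_mem_nhdsWithin).exists
    exact ⟨δ, h0, fun f g k _ _ _ => h1 f g k⟩
  by_cases a : Lt x y ∧ Lt x z
  · filter_upwards [lt_near a.1, lt_near a.2] with δ d1 d2 f g k s1 s2 s3
    refine z1 c fun u hu v hv => ?_
    rcases pr_tens _ _ hv with hv | hv
    exacts [d1 u (s1 hu) v (s2 hv), d2 u (s1 hu) v (s3 hv)]
  by_cases b : Lt y x ∧ Lt z x
  · filter_upwards [lt_near b.1, lt_near b.2] with δ d1 d2 f g k s1 s2 s3
    refine z2 c fun u hu v hv => ?_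
    rcases pr_tens _ _ hu with hu | hu
    exacts [d1 u (s2 hu) v (s1 hv), d2 u (s3 hu) v (s1 hv)]
  rcases not_and_or.1 a with a | a
  · have t1 := time_lt h2 a
    have t2 := time_lt h3.symm fun b' => b ⟨lt_of_time t1, b'⟩
    filter_upwards [lt_near (lt_of_time t1), lt_near (lt_of_time (t2.trans t1)), dis_near h3]
      with δ d1 d2 d3 f g k s1 s2 s3
    exact z3 c (late_mono d1 s2 s1) (late_mono d2 s2 s3) (d3.mono s1 s3)
  · have t1 := time_lt h3 a
    have t2 := time_lt h2.symm fun b' => b ⟨b', lt_of_time t1⟩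
    filter_upwards [lt_near (lt_of_time t1), lt_near (lt_of_time (t2.trans t1)), dis_near h2]
      with δ d1 d2 d3 f g k s1 s2 s3
    rw [zsw]
    exact z3 c (late_mono d1 s3 s1) (late_mono d2 s3 s2) (d3.mono s1 s2)

/-! ## the divergence of the reduced distribution -/

theorem pd_X (i j : Fin 5 × Ix) : pderiv i (X j : P20) = if j = i then 1 else 0 := by
  classical
  rw [MvPolynomial.pderiv_X, Pi.single_apply]

theorem dp_X0 {j : Fin 5} (hj : j ≠ 0) (I : I2) (m : Ix) (S : P20) :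
    dp j I (X (0, m) * S) = X (0, m) * dp j I S := by
  simp [dp, Derivation.leibniz, pd_X, Prod.ext_iff, hj.symm]

theorem ev8_d6 (a b : Ix) (J K : I2) (m : Ix) (S : P20) (z : V × V) :
    ev8 (d6 (a, b) J K (X (0, m) * S)) z =
      (if m = b then ev8 (pderiv (0, a) (dp 1 J (dp 2 K S))) z else 0) +
        if m = a then ev8 (pderiv (0, b) (dp 1 J (dp 2 K S))) z else 0 := by
  rw [d6_eq, dp_X0 (by decide), dp_X0 (by decide)]
  generalize dp 1 J (dp 2 K S) = R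
  have h0 : ev8 (X (0, m)) z = 0 := by simp [ev8]
  have h1 : ev8 (0 : P20) z = 0 := by simp [ev8]
  simp only [dp, Derivation.leibniz, pd_X, smul_eq_mul, map_add, Prod.mk.injEq, true_and]
  split_ifs <;> simp [ev8_add, ev8_mul, h0, h1, add_comm]

theorem ev8_du (m : Ix) (S : P20) (z : V × V) :
    fderiv ℝ (ev8 S) z (bas m 1, 0) = ev8 (pderiv (3, m) S) z := by
  rw [ev8_der, Finset.sum_eq_single (3, m)]
  · simp [← ev8_X, ev8, bas]
  · rintro ⟨j, n⟩ _ h
    rw [← ev8_X]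
    fin_cases j <;> simp [ev8, bas] at h ⊢
    exact .inl h
  · simp

theorem lf_du {g : V → ℂ} {ψ : V × V → ℂ} (hg : Dc g) (hψ : Dc ψ) (m : Ix) :
    sch (lf g (du m ψ)) = ∂_{((bas m 1, 0) : V × V × V)} (sch (lf g ψ)) := by
  rw [← Api4.sch_fderiv (dc_lf hg hψ)]
  congr 1
  funext z
  have h := ((hg.1.differentiable (by simp) z.2.1).hasFDerivAt.comp z
    (ContinuousLinearMap.fst ℝ V V ∘L .snd ℝ V (V × V)).hasFDerivAt).fun_mul
    ((hψ.1.differentiable (by simp) (dq z)).hasFDerivAt.comp z dq.hasFDerivAt)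
  refine Eq.trans ?_ (congrArg (· ((bas m 1, 0) : V × V × V)) h.fderiv).symm
  change _ = g z.2.1 * fderiv ℝ ψ (dq z) (dq (bas m 1, 0)) + ψ (dq z) * fderiv ℝ g z.2.1 0
  rw [map_zero, mul_zero, add_zero, show dq (bas m 1, 0) = (bas m 1, 0) by simp [dq_app]]
  rfl

/-- the components of `Ξ` -/
def cp (n : Ix) (J K : I2) (Ξ : P20) : V × V → ℂ := ev8 (pderiv (0, n) (dp 1 J (dp 2 K Ξ)))

theorem dc_du {ψ : V × V → ℂ} (hψ : Dc ψ) (m : Ix) : Dc (du m ψ) :=
  Api4.dc_fderiv hψ contDiff_const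

theorem div_eq [Fact c.tp] {ρ0 : V → ℝ} (h : Tst ρ0) {φ : V × V → ℂ} (hφ : Dc φ) (Ξ : P20) :
    Div (Lam c ρ0) φ Ξ = 2 * ∑ n, ∑ J, ∑ K,
      dv3 c n J K (sch (lf (cx ρ0) fun z => φ z * cp n J K Ξ z)) := by
  have hp : ∀ n J K, Dc fun z => φ z * cp n J K Ξ z := fun n J K => dc_mul hφ (ev8_smooth _)
  have e1 : ∀ (I J K : I2), tau c ρ0 I J K (fun z => φ z * ev8 (d6 I J K (d1 Ξ)) z) +
      ∑ m, tau c ρ0 I J K (fun z => du m φ z * ev8 (d6 I J K (X (0, m) * Ξ)) z) =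
      tau c ρ0 I J K (du I.2 fun z => φ z * cp I.1 J K Ξ z) +
        tau c ρ0 I J K (du I.1 fun z => φ z * cp I.2 J K Ξ z) := by
    rintro ⟨a, b⟩ J K
    have l := fun φ ψ hφ hψ => tau_lin c (I := (a, b)) (J := J) (K := K) (φ := φ) (ψ := ψ) h hφ hψ 1
    simp only [one_mul] at l
    have k := fun m => dc_mul (dc_du hφ m) (ev8_smooth (d6 (a, b) J K (X (0, m) * Ξ)))
    rw [Fin.sum_univ_four, ← l _ _ (k 0) (k 1), ← l _ _ (Api4.dc_add (k 0) (k 1)) (k 2),
      ← l _ _ (Api4.dc_add (Api4.dc_add (k 0) (k 1)) (k 2)) (k 3),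
      ← l _ _ (dc_mul hφ (ev8_smooth _))
        (Api4.dc_add (Api4.dc_add (Api4.dc_add (k 0) (k 1)) (k 2)) (k 3)),
      ← l _ _ (dc_du (hp _ _ _) _) (dc_du (hp _ _ _) _)]
    congr 1
    funext z
    rw [← Fin.sum_univ_four fun m => du m φ z * ev8 (d6 (a, b) J K (X (0, m) * Ξ)) z]
    have e2 : ev8 (d6 (a, b) J K (d1 Ξ)) z =
        ∑ m, ev8 (d6 (a, b) J K (X (0, m) * pderiv (3, m) Ξ)) z := by
      rw [d1, d6_eq, dp_sum, dp_sum, dp_sum, ev8_sum]
      simp only [d6_eq]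
    have e3 : ∀ n m, pderiv (0, n) (dp 1 J (dp 2 K (pderiv (3, m) Ξ))) =
        pderiv (3, m) (pderiv (0, n) (dp 1 J (dp 2 K Ξ))) := fun n m => by
      simp only [dp, pd_comm _ (3, m)]
    simp only [e2, ev8_d6, e3, Finset.sum_add_distrib, mul_add, mul_ite, mul_zero,
      Finset.sum_ite_eq', Finset.mem_univ, if_true, du, cp, mul_der hφ, ev8_du]
    ring
  have e4 : ∀ (I J K : I2) n m, tau c ρ0 I J K (du m fun z => φ z * cp n J K Ξ z) =
      c.t I J K (∂_{((bas m 1, 0) : V × V × V)}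
        (sch (lf (cx ρ0) fun z => φ z * cp n J K Ξ z))) := fun I J K n m => by
    rw [tau, lf_du (dc_cx h) (hp _ _ _)]
  have e5 : Div (Lam c ρ0) φ Ξ = ∑ I : I2, ∑ J, ∑ K,
      (tau c ρ0 I J K (fun z => φ z * ev8 (d6 I J K (d1 Ξ)) z) +
      ∑ m, tau c ρ0 I J K (fun z => du m φ z * ev8 (d6 I J K (X (0, m) * Ξ)) z)) := by
    simp only [Div, lam_eq, Finset.sum_add_distrib]
    congr 1
    rw [Finset.sum_comm]
    refine Finset.sum_congr rfl fun I _ => ?_
    rw [Finset.sum_comm]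
    exact Finset.sum_congr rfl fun J _ => Finset.sum_comm
  rw [e5]
  simp only [e1, e4, Finset.sum_add_distrib, dv3_apply, two_mul, Fintype.sum_prod_type (f :=
    fun I : I2 => ∑ J : I2, ∑ K : I2, c.t I J K _)]
  congr 1
  · refine Finset.sum_congr rfl fun a _ => ?_
    rw [Finset.sum_comm]
    refine Finset.sum_congr rfl fun J _ => ?_
    rw [Finset.sum_comm]
    exact Finset.sum_congr rfl fun K _ => Finset.sum_congr rfl fun b _ => by
      rw [c.hTP.ind (a, b)]; rfl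
  · rw [Finset.sum_comm]
    refine Finset.sum_congr rfl fun a _ => ?_
    rw [Finset.sum_comm]
    exact Finset.sum_congr rfl fun J _ => Finset.sum_comm

theorem supp_lf (g : V → ℂ) (φ ψ : V × V → ℂ) :
    tsupport (lf g fun z => φ z * ψ z) ⊆ dq ⁻¹' tsupport φ :=
  Ap.tsupp_sub ((isClosed_tsupport φ).preimage dq.continuous) fun z hz =>
    subset_tsupport φ fun h0 => hz (by simp [lf, h0])

end Dvc

theorem divc_row {D : Type*} [NormedAddCommGroup D] [InnerProductSpace ℂ D] (c : Ctx D) [Fact c.tp] :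
    T3 c → ∀ ρ0, Tst ρ0 → ∫ x, ρ0 x = 1 → DIVC (Lam c ρ0) := fun _ ρ0 h _ φ Ξ hφ hs => by
  rw [Dvc.div_eq c h hφ]
  refine mul_eq_zero_of_right _ (Finset.sum_eq_zero fun n _ => Finset.sum_eq_zero fun J _ =>
    Finset.sum_eq_zero fun K _ => Dvc.off3 c n J K _ fun q hq => ?_)
  rw [Api4.tsupport_sch (Red.dc_lf (Red.dc_cx h) (Red.dc_mul (G := Dvc.cp n J K Ξ) hφ
    (Red.ev8_smooth _)))] at hq
  obtain ⟨h1, h2⟩ := hs (Dvc.supp_lf _ _ _ hq)
  exact ⟨fun e => h1 (sub_eq_zero.2 e), fun e => h2 (congrArg (· - q.2.1) e)⟩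

end

end Vale.Agent.P352X.RS
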