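import Vale.Agent.P352X.R.RES.Spec

/-!
# P352X, block RES: calculus of the sources
-/

set_option linter.all false

open scoped ContDiff

namespace Vale.Agent.P352X.RS.Red

open Vale.Agent.P352 Vale.Agent.P352.GF
open MvPolynomial (X C pderiv aeval)

noncomputable section

theorem pd_comm (i j : Fin 5 × Ix) (S : P20) : pderiv i (pderiv j S) = pderiv j (pderiv i S) := by
  classical
  induction S using MvPolynomial.induction_on with
  | C a => simp
  | add p q hp hq => simp only [map_add, hp, hq]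
  | mul_X p k hp =>
    have h : ∀ a b, pderiv a (pderiv b (X k : P20)) = 0 := fun a b => by
      rw [MvPolynomial.pderiv_X, Pi.single_apply]
      split_ifs <;> simp
    simp only [Derivation.leibniz, map_add, smul_eq_mul, hp, h]
    ring

theorem pd_hom (φ : P20 →ₐ[ℂ] P20) {i i' : Fin 5 × Ix}
    (h : ∀ j, pderiv i (φ (X j)) = φ (pderiv i' (X j))) (S : P20) :
    pderiv i (φ S) = φ (pderiv i' S) := by
  induction S using MvPolynomial.induction_on with
  | C a => simp
  | add p q hp hq => simp only [map_add, hp, hq]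
  | mul_X p k hp => simp only [Derivation.leibniz, map_add, map_mul, smul_eq_mul, hp, h]

theorem pd_om (w : Ix → V) (j : Fin 5) (a : Ix) (S : P20) : pderiv (j, a) (om w S) =
    om w (pderiv (j, a) S) + ∑ n, C (w a n : ℂ) * pderiv (j, n) S := by
  classical
  have h : ∀ k m n, pderiv (j, a) (C (w m n : ℂ) * X (k, m) * pderiv (k, n) S : P20) =
      C (w m n : ℂ) * X (k, m) * pderiv (k, n) (pderiv (j, a) S) +
        if k = j then if m = a then C (w m n : ℂ) * pderiv (k, n) S else 0 else 0 := fun k m n => by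
    rw [mul_assoc, MvPolynomial.pderiv_C_mul, Derivation.leibniz, MvPolynomial.pderiv_X,
      Pi.single_apply, pd_comm, smul_eq_mul, smul_eq_mul, mul_add, mul_assoc]
    by_cases h1 : k = j <;> by_cases h2 : m = a <;> simp [h1, h2]
  simp only [om, map_sum, h, Finset.sum_add_distrib]
  simp

/-- the components in one slot -/
def dp (j : Fin 5) (I : I2) (S : P20) : P20 := pderiv (j, I.1) (pderiv (j, I.2) S)

theorem d6_eq (I J K : I2) (S : P20) : d6 I J K S = dp 0 I (dp 1 J (dp 2 K S)) := rfl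

theorem dp_add (j : Fin 5) (I : I2) (S S' : P20) : dp j I (S + S') = dp j I S + dp j I S' := by
  simp only [dp, map_add]

theorem dp_C (j : Fin 5) (I : I2) (a : ℂ) (S : P20) : dp j I (C a * S) = C a * dp j I S := by
  simp only [dp, MvPolynomial.pderiv_C_mul]

theorem dp_sum {ι : Type} (t : Finset ι) (j : Fin 5) (I : I2) (S : ι → P20) :
    dp j I (∑ i ∈ t, S i) = ∑ i ∈ t, dp j I (S i) := by
  simp only [dp, map_sum]

theorem dp_comm (j k : Fin 5) (I J : I2) (S : P20) : dp j I (dp k J S) = dp k J (dp j I S) := by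
  simp only [dp]
  rw [pd_comm (j, I.2), pd_comm (j, I.1), pd_comm (j, I.2), pd_comm (j, I.1) (k, J.2)]

/-- the derivative of `L2` at the identity -/
def l2 (w : Ix → V) (K I : I2) : ℂ :=
  (w K.1 I.1 * GF.one K.2 I.2 + GF.one K.1 I.1 * w K.2 I.2 : ℝ)

theorem dp_om (w : Ix → V) (j : Fin 5) (I : I2) (S : P20) :
    dp j I (om w S) = om w (dp j I S) + ∑ K, C (l2 w I K) * dp j K S := by
  simp only [dp, pd_om, map_add, map_sum, MvPolynomial.pderiv_C_mul, l2, GF.one, bas,
    Fintype.sum_prod_type, Complex.ofReal_add, add_mul, Finset.sum_add_distrib, add_assoc,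
    mul_ite, ite_mul, mul_one, mul_zero, one_mul, zero_mul, apply_ite Complex.ofReal,
    Complex.ofReal_zero, apply_ite C, map_zero, Finset.sum_ite_eq', Finset.mem_univ, if_true,
    Finset.sum_ite_irrel, Finset.sum_const_zero]

theorem d6_om (w : Ix → V) (I J K : I2) (S : P20) : d6 I J K (om w S) = om w (d6 I J K S) +
    (∑ M, C (l2 w I M) * d6 M J K S + ∑ M, C (l2 w J M) * d6 I M K S +
      ∑ M, C (l2 w K M) * d6 I J M S) := by
  simp only [d6_eq, dp_om, dp_add, dp_sum, dp_C, add_assoc]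

theorem d6_lin (I J K : I2) (a : ℂ) (S S' : P20) :
    d6 I J K (S + C a * S') = d6 I J K S + C a * d6 I J K S' := by
  simp only [d6_eq, dp_add, dp_C]

theorem dp_deg {n : ℕ} {S : P20} (h : Deg n S) {j : Fin 5} (hj : ¬ 3 ≤ j) (I : I2) :
    Deg n (dp j I S) :=
  (MvPolynomial.IsWeightedHomogeneous.pderiv h (n' := n) (by simp [hj])).pderiv (by simp [hj])

theorem d6_deg {n : ℕ} {S : P20} (h : Deg n S) (I J K : I2) : Deg n (d6 I J K S) :=
  dp_deg (dp_deg (dp_deg h (by decide) K) (by decide) J) (by decide) I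

theorem pd_s12 (j : Fin 3) (a : Ix) (S : P20) : pderiv (![1, 0, 2] j, a) (s12 S) =
    s12 (pderiv (![0, 1, 2] j, a) S) := pd_hom s12 (fun ⟨k, m⟩ => by
  classical
  fin_cases j <;> fin_cases k <;> simp [s12, MvPolynomial.pderiv_X, Pi.single_apply, apply_ite]) S

theorem pd_s13 (j : Fin 3) (a : Ix) (S : P20) : pderiv (![2, 1, 0] j, a) (s13 S) =
    s13 (pderiv (![0, 1, 2] j, a) S) := pd_hom s13 (fun ⟨k, m⟩ => by
  classical
  fin_cases j <;> fin_cases k <;> simp [s13, MvPolynomial.pderiv_X, Pi.single_apply, apply_ite]) S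

theorem d6_s12 (I J K : I2) (S : P20) : d6 I J K (s12 S) = s12 (d6 J I K S) := by
  have h0 : ∀ a S, pderiv (1, a) (s12 S) = s12 (pderiv (0, a) S) := pd_s12 0
  have h1 : ∀ a S, pderiv (0, a) (s12 S) = s12 (pderiv (1, a) S) := pd_s12 1
  have h2 : ∀ a S, pderiv (2, a) (s12 S) = s12 (pderiv (2, a) S) := pd_s12 2
  rw [d6_eq J, dp_comm]
  simp only [d6, dp, h0, h1, h2]

theorem d6_s13 (I J K : I2) (S : P20) : d6 I J K (s13 S) = s13 (d6 K J I S) := by
  have h0 : ∀ a S, pderiv (2, a) (s13 S) = s13 (pderiv (0, a) S) := pd_s13 0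
  have h1 : ∀ a S, pderiv (1, a) (s13 S) = s13 (pderiv (1, a) S) := pd_s13 1
  have h2 : ∀ a S, pderiv (0, a) (s13 S) = s13 (pderiv (2, a) S) := pd_s13 2
  rw [d6_eq K, dp_comm 1, dp_comm 0, dp_comm 0]
  simp only [d6, dp, h0, h1, h2]

/-! ## evaluation -/

/-- the coordinates -/
def cv (i : Fin 5 × Ix) : V × V →L[ℝ] ℂ :=
  ![0, 0, 0, Complex.ofRealCLM ∘L .proj i.2 ∘L .fst ℝ V V,
    Complex.ofRealCLM ∘L .proj i.2 ∘L .snd ℝ V V] i.1

theorem ev8_X (i : Fin 5 × Ix) (z : V × V) : ev8 (X i) z = cv i z := by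
  obtain ⟨j, m⟩ := i
  fin_cases j <;> simp [ev8, cv]

theorem ev8_C (a : ℂ) (z : V × V) : ev8 (C a) z = a := by simp [ev8]

theorem ev8_add (S S' : P20) (z : V × V) : ev8 (S + S') z = ev8 S z + ev8 S' z := map_add _ _ _

theorem ev8_mul (S S' : P20) (z : V × V) : ev8 (S * S') z = ev8 S z * ev8 S' z := map_mul _ _ _

theorem ev8_sum {ι : Type} (t : Finset ι) (S : ι → P20) (z : V × V) :
    ev8 (∑ i ∈ t, S i) z = ∑ i ∈ t, ev8 (S i) z := map_sum _ _ _

theorem ev8_smooth (S : P20) : ContDiff ℝ ∞ (ev8 S) := by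
  induction S using MvPolynomial.induction_on with
  | C a => exact funext (ev8_C a) ▸ contDiff_const
  | add p q hp hq => exact funext (ev8_add p q) ▸ hp.add hq
  | mul_X p k hp => exact funext (ev8_mul p _) ▸ hp.mul (funext (ev8_X k) ▸ (cv k).contDiff)

theorem ev8_diff (S : P20) (z : V × V) : DifferentiableAt ℝ (ev8 S) z :=
  (ev8_smooth S).differentiable (by simp) z

theorem ev8_der (S : P20) (z y : V × V) :
    fderiv ℝ (ev8 S) z y = ∑ i, cv i y * ev8 (pderiv i S) z := by
  classical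
  induction S using MvPolynomial.induction_on with
  | C a =>
    rw [funext (ev8_C a)]
    simp [ev8]
  | add p q hp hq =>
    rw [funext (ev8_add p q), fderiv_fun_add (ev8_diff p z) (ev8_diff q z)]
    simp only [ContinuousLinearMap.add_apply, hp, hq, map_add, ev8_add, mul_add,
      Finset.sum_add_distrib]
  | mul_X p k hp =>
    have h : ∀ i, cv i y * ev8 (pderiv i (p * X k)) z = (if k = i then ev8 p z * cv i y else 0) +
        cv k z * (cv i y * ev8 (pderiv i p) z) := fun i => by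
      rw [Derivation.leibniz, MvPolynomial.pderiv_X, Pi.single_apply, ev8_add, smul_eq_mul,
        smul_eq_mul, ev8_mul, ev8_mul, ev8_X]
      split_ifs <;> simp [ev8] <;> ring
    rw [funext (ev8_mul p _), fderiv_fun_mul (ev8_diff p z) (ev8_diff _ z), funext (ev8_X k),
      (cv k).fderiv]
    simp only [h, Finset.sum_add_distrib, ← Finset.mul_sum, ← hp, Finset.sum_ite_eq,
      Finset.mem_univ, if_true, ContinuousLinearMap.add_apply, ContinuousLinearMap.smul_apply,
      smul_eq_mul]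

theorem ev8_om (w : Ix → V) (S : P20) (z : V × V) : ev8 (om w S) z = Xf w (ev8 S) z := by
  have h : ∀ j n, cv (j, n) (sim 1 w 0 z.1, sim 1 w 0 z.2) = ∑ m, (w m n : ℂ) * cv (j, m) z :=
    fun j n => by fin_cases j <;> simp [cv, sim, mul_comm]
  simp only [Xf, ev8_der, om, ev8_sum, ev8_mul, ev8_C, ev8_X, Fintype.sum_prod_type, h,
    Finset.sum_mul]
  exact Finset.sum_congr rfl fun j _ => Finset.sum_comm

theorem ev8_E {n : ℕ} {S : P20} (h : Deg n S) (z : V × V) : Ef (ev8 S) z = n * ev8 S z := by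
  have k := congrArg (ev8 · z) h.sum_weight_X_mul_pderiv
  simp only [ev8_sum, nsmul_eq_mul, ← MvPolynomial.C_eq_coe_nat, ev8_mul, ev8_C, ev8_X] at k
  rw [← k, Ef, ev8_der]
  refine Finset.sum_congr rfl fun ⟨j, m⟩ _ => ?_
  fin_cases j <;> simp [cv]

theorem ev8_hom (φ : P20 →ₐ[ℂ] P20) {z z' : V × V} (h : ∀ i, ev8 (φ (X i)) z = cv i z')
    (S : P20) : ev8 (φ S) z = ev8 S z' := by
  induction S using MvPolynomial.induction_on with
  | C a => simp [ev8]
  | add p q hp hq => simp only [map_add, ev8_add, hp, hq]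
  | mul_X p k hp => simp only [map_mul, ev8_mul, hp, h, ev8_X]

theorem ev8_s12 (S : P20) (z : V × V) : ev8 (s12 S) z = ev8 S (-z.1, z.2 - z.1) :=
  ev8_hom s12 (fun ⟨j, m⟩ => by fin_cases j <;> simp [s12, ev8, cv]) S

theorem ev8_s13 (S : P20) (z : V × V) : ev8 (s13 S) z = ev8 S (z.2, z.1) :=
  ev8_hom s13 (fun ⟨j, m⟩ => by fin_cases j <;> simp [s13, ev8, cv]) S

end

end Vale.Agent.P352X.RS.Red
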