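import Vale.Agent.P352X.R.RES.Fib
import Vale.Agent.P352X.R.RES.RedA
import Vale.Agent.P352X.Api3a

/-!
# P352X, block RES: row `link`
-/

set_option linter.all false

open MeasureTheory Filter Topology
open scoped SchwartzMap ContDiff

namespace Vale.Agent.P352X.RS

open Vale.Agent.P352.GF Vale.Agent.P352.H755 Vale.Agent.P352X.Api4 Red
open MvPolynomial (X C pderiv)

noncomputable section

namespace Link

/-! ## the components of the source -/

/-- independent of the slot `j` -/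
def Fr (j : Fin 5) (T : P20) : Prop := ∀ a, pderiv (j, a) T = 0

variable {j k : Fin 5} {S T : P20}

theorem Fr.mul (h : Fr j S) (h' : Fr j T) : Fr j (S * T) := fun a => by
  rw [Derivation.leibniz, h a, h' a, smul_zero, smul_zero, add_zero]

theorem Fr.add (h : Fr j S) (h' : Fr j T) : Fr j (S + T) := fun a => by
  rw [map_add, h a, h' a, add_zero]

theorem Fr.sub (h : Fr j S) (h' : Fr j T) : Fr j (S - T) := fun a => by
  rw [map_sub, h a, h' a, sub_zero]

theorem Fr.sq (h : Fr j S) : Fr j (S ^ 2) := pow_two S ▸ h.mul h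

theorem fr_C (a : ℂ) : Fr j (C a) := fun _ => MvPolynomial.pderiv_C

theorem fr_X (h : k ≠ j) (m : Ix) : Fr j (X (k, m)) := fun _ =>
  MvPolynomial.pderiv_X_of_ne fun e => h (congrArg Prod.fst e)

theorem fr_dot (h : k ≠ j) : Fr j (dotP k k) := fun a => by
  rw [dotP, map_sum]
  exact Finset.sum_eq_zero fun m _ => ((fr_C _).mul (fr_X h m)).mul (fr_X h m) a

theorem fr_lin (h : k ≠ j) (w : V) : Fr j (linP w k) := fun a => by
  rw [linP, map_sum]
  exact Finset.sum_eq_zero fun m _ => (fr_C _).mul (fr_X h m) a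

theorem dp_mul (h : Fr j T) (I : I2) : dp j I (S * T) = dp j I S * T := by
  simp only [dp, Derivation.leibniz, h _, smul_eq_mul, mul_zero, zero_mul, zero_add, add_zero,
    mul_comm]

theorem pd_X (a m : Ix) : pderiv (j, a) (X (j, m) : P20) = if m = a then 1 else 0 := by
  classical
  simp [MvPolynomial.pderiv_X, Pi.single_apply]

theorem pd_lin (w : V) (a : Ix) : pderiv (j, a) (linP w j) = C ((eta a * w a : ℝ) : ℂ) := by
  simp only [linP, map_sum, MvPolynomial.pderiv_C_mul, pd_X, mul_ite, mul_one, mul_zero,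
    Finset.sum_ite_eq', Finset.mem_univ, if_true]

/-- the coefficients of `η` -/
def c1 (I : I2) : ℂ := if I.1 = I.2 then 2 * eta I.1 else 0

/-- the coefficients of `a a` -/
def c2 (I : I2) : ℂ := 2 * ((eta I.1 * va I.1 : ℝ) * (eta I.2 * va I.2 : ℝ))

theorem dp_dot (I : I2) : dp j I (dotP j j) = C (c1 I) := by
  have h : pderiv (j, I.2) (dotP j j) = C (2 * eta I.2 : ℂ) * X (j, I.2) := by
    simp only [dotP, map_sum, mul_assoc, MvPolynomial.pderiv_C_mul, Derivation.leibniz, pd_X,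
      smul_eq_mul, mul_ite, mul_one, mul_zero, mul_add, Finset.sum_add_distrib, Finset.sum_ite_eq',
      Finset.mem_univ, if_true, map_mul, map_ofNat, MvPolynomial.pderiv_C, add_zero]
    ring
  rw [dp, h, MvPolynomial.pderiv_C_mul, pd_X, c1]
  by_cases e : I.1 = I.2
  · simp [e]
  · simp [e, Ne.symm e]

theorem dp_lin (I : I2) : dp j I (linP va j ^ 2) = C (c2 I) := by
  simp only [dp, sq, Derivation.leibniz, pd_lin, smul_eq_mul, map_add, MvPolynomial.pderiv_C,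
    mul_zero, zero_add, c2, map_mul, map_ofNat]
  ring

/-- the weight -/
def Q0 : P20 := (X (3, 2) * X (4, 2) + X (3, 3) * X (4, 3)) * (linP vb 3 - linP vb 4) ^ 2

theorem fr_Q0 (h3 : 3 ≠ j) (h4 : 4 ≠ j) : Fr j Q0 :=
  (((fr_X h3 _).mul (fr_X h4 _)).add ((fr_X h3 _).mul (fr_X h4 _))).mul
    ((fr_lin h3 _).sub (fr_lin h4 _)).sq

theorem d6_S0 (I J K : I2) : d6 I J K S0 = C (c1 I * c2 J * c1 K) * Q0 := by
  rw [d6_eq, show S0 = dotP 2 2 * (dotP 0 0 * linP va 1 ^ 2 * Q0) by rw [S0, Q0]; ring,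
    dp_mul (((fr_dot (by decide)).mul (fr_lin (by decide) _).sq).mul (fr_Q0 (by decide) (by decide))),
    dp_dot, show C (c1 K) * (dotP 0 0 * linP va 1 ^ 2 * Q0) =
      linP va 1 ^ 2 * (C (c1 K) * dotP 0 0 * Q0) by ring,
    dp_mul (((fr_C _).mul (fr_dot (by decide))).mul (fr_Q0 (by decide) (by decide))), dp_lin,
    show C (c2 J) * (C (c1 K) * dotP 0 0 * Q0) = dotP 0 0 * (C (c2 J) * C (c1 K) * Q0) by ring,
    dp_mul (((fr_C _).mul (fr_C _)).mul (fr_Q0 (by decide) (by decide))), dp_dot, map_mul, map_mul]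
  ring

theorem ev8_Q0 (y : V) (z : V × V) : ev8 Q0 z = Ph0 (y + z.1) y (y + z.2) := by
  simp [ev8, Q0, linP, Ph0, d2_eq, al, mdot, Fin.sum_univ_four, -mul_eq_mul_left_iff]
  ring

/-! ## the test function -/

/-- `g(al, x) φ(be)` -/
def q (g : P3 → ℝ) (φ : ℝ → ℝ) (z : V) : ℝ := g (pl z) * φ (be z)

/-- the derivative of `q` -/
def dq (g : P3 → ℝ) (φ : ℝ → ℝ) (z : V) : V →L[ℝ] ℝ :=
  g (pl z) • deriv φ (be z) • beL + φ (be z) • fderiv ℝ g (pl z) ∘L plL

variable {g : P3 → ℝ} {φ : ℝ → ℝ}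

theorem q_der (hg : Tst g) (hφ : Tst φ) (z : V) : HasFDerivAt (q g φ) (dq g φ z) z := by
  have h1 := (hg.1.differentiable (by simp) (pl z)).hasFDerivAt.comp z plL.hasFDerivAt
  have h2 := (hφ.1.differentiable (by simp) (be z)).hasDerivAt.comp_hasFDerivAt z beL.hasFDerivAt
  exact h1.mul h2

theorem dc_q (hg : Tst g) (hφ : Tst φ) : Dc (cx (q g φ)) := by
  have := dc_comp_cle (dc_tens (dc_cx hg) (dc_cx hφ)) plE
  refine (congrArg Dc (funext fun z => ?_)).mp this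
  simp [cx, q]

theorem near {E : Type*} [NormedAddCommGroup E] {K : Set E} (hK : IsCompact K) {κ : E → ℝ}
    (h : ∀ y ∈ K, ∀ᶠ x in 𝓝 y, κ x = 1) : ∀ᶠ a in 𝓝 (0 : E), ∀ y ∈ K, κ (y + a) = 1 :=
  hK.eventually_forall_of_forall_eventually fun y hy =>
    ((continuous_snd.add continuous_fst).tendsto' (0, y) y (add_zero y)).eventually (h y hy)

theorem al_H (z : V) : al (sim 1 wH 0 z) = al z := by
  simp [al_eq, sim, wH, Fin.sum_univ_four, add_comm]

theorem be_H (z : V) : be (sim 1 wH 0 z) = -be z := by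
  simp [be_eq, sim, wH, Fin.sum_univ_four]

theorem tx_H (z : V) : tx (sim 1 wH 0 z) = 0 := by
  ext i
  fin_cases i <;> simp [sim, wH, Fin.sum_univ_four]

variable {ρ1 κ2 κ3 : P3 → ℝ} {ρ2 θ1 θ3 : ℝ → ℝ}

variable (ρ1 κ2 κ3 ρ2 θ1 θ3) in
/-- the cutoff on three points -/
def Ps (z : V × V × V) : ℂ := (q ρ1 θ1 z.1 * (q κ2 ρ2 z.2.1 * q κ3 θ3 z.2.2) : ℝ)

variable (h1 : Tst ρ1) (h2 : Tst κ2) (h3 : Tst κ3) (h4 : Tst ρ2) (h5 : Tst θ1) (h6 : Tst θ3)
include h1 h2 h3 h4 h5 h6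

theorem dc_Ps : Dc (Ps ρ1 κ2 κ3 ρ2 θ1 θ3) := by
  have := dc_tens (dc_q h1 h5) (dc_tens (dc_q h2 h4) (dc_q h3 h6))
  refine (congrArg Dc (funext fun z => ?_)).mp this
  simp [cx, Ps]

theorem Ps_der (z w : V × V × V) : fderiv ℝ (Ps ρ1 κ2 κ3 ρ2 θ1 θ3) z w =
    (q ρ1 θ1 z.1 * (q κ2 ρ2 z.2.1 * dq κ3 θ3 z.2.2 w.2.2 + q κ3 θ3 z.2.2 * dq κ2 ρ2 z.2.1 w.2.1) +
      q κ2 ρ2 z.2.1 * q κ3 θ3 z.2.2 * dq ρ1 θ1 z.1 w.1 : ℝ) := by
  have a := (q_der h1 h5 z.1).comp z hasFDerivAt_fst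
  have b := (q_der h2 h4 z.2.1).comp z (hasFDerivAt_fst.comp z hasFDerivAt_snd)
  have c := (q_der h3 h6 z.2.2).comp z (hasFDerivAt_snd.comp z hasFDerivAt_snd)
  exact congrArg (· w) (Complex.ofRealCLM.hasFDerivAt.comp z (a.mul (b.mul c))).fderiv

/-- the flow `(0, 2 be, x)` on the fibre integral -/
theorem flow (z : V × V) :
    Ef (fun z : V × V => ∫ y, Ps ρ1 κ2 κ3 ρ2 θ1 θ3 (y + z.1, y, y + z.2)) z -
      Xf wH (fun z : V × V => ∫ y, Ps ρ1 κ2 κ3 ρ2 θ1 θ3 (y + z.1, y, y + z.2)) z =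
    ∫ y, ((ρ1 (pl (y + z.1)) * ρ2 (be y) *
      (2 * (be (y + z.1) - be y) * deriv θ1 (be (y + z.1)) * θ3 (be (y + z.2)) * κ2 (pl y) *
          κ3 (pl (y + z.2)) +
        2 * (be (y + z.2) - be y) * θ1 (be (y + z.1)) * deriv θ3 (be (y + z.2)) * κ2 (pl y) *
          κ3 (pl (y + z.2)) +
        θ1 (be (y + z.1)) * θ3 (be (y + z.2)) * dx κ2 (pl y) (tx y - tx (y + z.1)) *
          κ3 (pl (y + z.2)) +
        θ1 (be (y + z.1)) * θ3 (be (y + z.2)) * κ2 (pl y) *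
          dx κ3 (pl (y + z.2)) (tx (y + z.2) - tx (y + z.1))) : ℝ) : ℂ) := by
  have hP := dc_Ps h1 h2 h3 h4 h5 h6
  have hG := dc_comp_cle hP (rd3 V).symm
  set G := fun p => Ps ρ1 κ2 κ3 ρ2 θ1 θ3 ((rd3 V).symm p) with eG
  have i : ∀ w, Integrable fun y => fderiv ℝ G (y, z) w := fun w =>
    integrable_slice volume (dc_fderiv hG (X := fun _ => w) contDiff_const) z
  have k := fderiv_int volume hG z (z - (sim 1 wH 0 z.1, sim 1 wH 0 z.2))
  rw [← sub_zero (∫ _, _), ← int_fderiv_zero volume hG z (tv (tx z.1)),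
    ← integral_sub (i _) (i _), map_sub] at k
  refine k.trans (integral_congr_ae (.of_forall fun y => ?_))
  have d := ((hP.1.differentiable (by simp) _).hasFDerivAt.comp (y, z)
    (rd3 V).symm.hasFDerivAt).fderiv
  beta_reduce
  rw [← map_sub, show fderiv ℝ G (y, z) = _ from d, ContinuousLinearMap.comp_apply,
    ContinuousLinearEquiv.coe_coe]
  refine (Ps_der h1 h2 h3 h4 h5 h6 _ _).trans (congrArg _ ?_)
  have e : ∀ w : V, al w = 0 → pl w = (0, tx w) := fun w h => by rw [pl, h]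
  simp only [ContinuousLinearEquiv.coe_coe, rd3_symm, dq, q, dx, ContinuousLinearMap.add_apply,
    ContinuousLinearMap.smul_apply, ContinuousLinearMap.comp_apply, beL_apply, plL_apply,
    smul_eq_mul, Prod.fst_sub, Prod.snd_sub, sub_zero, zero_sub]
  rw [e (-tv (tx z.1) + (z.2 - _)) (by simp [al_H]), e (-tv (tx z.1) + (z.1 - _)) (by simp [al_H]),
    e (-tv (tx z.1)) (by simp)]
  simp only [be_add, be_sub, be_neg, be_tv, be_H, tx_add, tx_sub, tx_neg, tx_tv, tx_H, sub_zero,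
    neg_add_cancel, add_sub_add_left_eq_sub, sub_add_cancel_left, neg_add_eq_sub, sub_self,
    Prod.mk_zero_zero, map_zero]
  ring

omit h2 h3 h5 h6 in
theorem const
    (k1 : ∀ y ∈ tsupport ρ1, (∀ᶠ x in 𝓝 y, κ2 x = 1) ∧ ∀ᶠ x in 𝓝 y, κ3 x = 1)
    (k2 : ∀ t ∈ tsupport ρ2, (∀ᶠ x in 𝓝 t, θ1 x = 1) ∧ ∀ᶠ x in 𝓝 t, θ3 x = 1) :
    ∀ᶠ z in 𝓝 (0 : V × V), ∫ y, Ps ρ1 κ2 κ3 ρ2 θ1 θ3 (y + z.1, y, y + z.2) =
      ∫ y, (q ρ1 ρ2 y : ℂ) := by
  have t1 : Tendsto (fun z : V × V => -pl z.1) (𝓝 0) (𝓝 0) :=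
    Continuous.tendsto' (by fun_prop) _ _ (by simp [pl])
  have t2 : Tendsto (fun z : V × V => pl z.2 - pl z.1) (𝓝 0) (𝓝 0) :=
    Continuous.tendsto' (by fun_prop) _ _ (by simp)
  have t3 : Tendsto (fun z : V × V => be z.1) (𝓝 0) (𝓝 0) :=
    Continuous.tendsto' (by fun_prop) _ _ (by simp)
  have t4 : Tendsto (fun z : V × V => be z.2) (𝓝 0) (𝓝 0) :=
    Continuous.tendsto' (by fun_prop) _ _ (by simp)
  filter_upwards [t1.eventually (near h1.2 fun y hy => (k1 y hy).1),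
    t2.eventually (near h1.2 fun y hy => (k1 y hy).2),
    t3.eventually (near h4.2 fun y hy => (k2 y hy).1),
    t4.eventually (near h4.2 fun y hy => (k2 y hy).2)] with z a b c d
  rw [← integral_add_right_eq_self (fun y => (q ρ1 ρ2 y : ℂ)) (pt (al z.1) 0 (tx z.1))]
  refine integral_congr_ae (.of_forall fun y => congrArg Complex.ofReal ?_)
  have p : ∀ x w : V, pl (x + w) = pl x + pl w := fun x w => map_add plL x w
  simp only [q, p, be_add, be_pt, add_zero, pl_pt]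
  change _ = ρ1 (pl y + pl z.1) * _
  by_cases r1 : ρ1 (pl y + pl z.1) = 0
  · simp [r1]
  by_cases r2 : ρ2 (be y) = 0
  · simp [r2]
  have a' := a _ (subset_tsupport _ r1)
  have b' := b _ (subset_tsupport _ r1)
  rw [add_neg_cancel_right] at a'
  rw [add_add_sub_cancel] at b'
  rw [a', b', c _ (subset_tsupport _ r2), d _ (subset_tsupport _ r2)]
  ring

end Link

open Link in
/-- row RES.link -/
theorem link_row {D : Type*} [NormedAddCommGroup D] [InnerProductSpace ℂ D] (c : Ctx D) [Fact c.tp] :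
    T3 c → FIB c → (∀ ρ0, Tst ρ0 → ∫ x, ρ0 x = 1 → RZ (Lam c ρ0)) → RES c := by
  intro _ _ hR ρ1 κ2 κ3 ρ2 θ1 θ3 G h1 h2 h3 h4 h5 h6 k1 k2 hG
  let b : ContDiffBump (0 : V) := ⟨1, 2, one_pos, one_lt_two⟩
  have r0 : Tst (b.normed volume) := ⟨b.contDiff_normed, b.hasCompactSupport_normed⟩
  have r1 : ∫ y, sch (cx (b.normed volume)) y = 1 := by
    rw [coe_sch (dc_cx r0)]
    exact (integral_complex_ofReal (f := b.normed volume)).trans (by rw [b.integral_normed]; rfl)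
  have k := hR _ r0 b.integral_normed _ _ (sch_fib3 volume (dc_Ps h1 h2 h3 h4 h5 h6)).1
    (const h1 h4 k1 k2)
  rw [Lam, Finset.sum_congr rfl fun I _ => Finset.sum_congr rfl fun J _ =>
    Finset.sum_congr rfl fun K _ => congrArg (c.t I J K) (sch_eq ((c1 I * c2 J * c1 K) •
      red3 (sch (cx (b.normed volume))) (fib3 volume G)) fun z => by
        rw [SchwartzMap.smul_apply, red3_apply, fib3_apply, sch_apply (dc_cx r0),
          flow h1 h2 h3 h4 h5 h6, d6_S0, ev8_mul, ev8_C, smul_eq_mul, mul_left_comm,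
          ← integral_const_mul, ← integral_mul_const]
        refine congrArg _ (integral_congr_ae (.of_forall fun y => ?_))
        beta_reduce
        rw [hG, ev8_Q0 y]
        push_cast
        ring)] at k
  simp only [map_smul, ← Fib.t_fib c _ _ _ r1] at k
  simp only [c1, c2, Fintype.sum_prod_type, ite_mul, mul_ite,
    zero_mul, mul_zero, ite_smul, zero_smul, Finset.sum_ite_irrel, Finset.sum_const_zero,
    Finset.sum_ite_eq, Finset.mem_univ, if_true] at k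
  refine mul_left_cancel₀ (show (8 : ℂ) ≠ 0 by norm_num) (Eq.trans ?_ (k.trans (mul_zero _).symm))
  simp only [Ctx.t0, Finset.mul_sum, smul_eq_mul]
  refine Finset.sum_congr rfl fun m _ => Finset.sum_congr rfl fun k _ =>
    Finset.sum_congr rfl fun l _ => Finset.sum_congr rfl fun n _ => ?_
  push_cast
  ring

end

end Vale.Agent.P352X.RS
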