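import Vale.Agent.P352X.R.RES.Spec
import Mathlib.RingTheory.MvPolynomial.EulerIdentity

/-!
# P352X, row RES.coc: algebra (degrees, the exchange of the points 2 and 3)
-/

set_option linter.all false

namespace Vale.Agent.P352X.RS.Coc

open Vale.Agent.P352 Vale.Agent.P352.GF
open MvPolynomial (X C pderiv aeval IsWeightedHomogeneous)

noncomputable section

/-- the weights -/
def wt (i : Fin 5 × Ix) : ℕ := if 3 ≤ i.1 then 1 else 0

lemma deg_X (i : Fin 5 × Ix) : Deg (wt i) (X i) := MvPolynomial.isWeightedHomogeneous_X ℂ _ i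

lemma deg_add {n : ℕ} {S T : P20} (h : Deg n S) (h' : Deg n T) : Deg n (S + T) :=
  IsWeightedHomogeneous.add h h'

lemma deg_sub {n : ℕ} {S T : P20} (h : Deg n S) (h' : Deg n T) : Deg n (S - T) :=
  IsWeightedHomogeneous.sub h h'

lemma deg_neg {n : ℕ} {S : P20} (h : Deg n S) : Deg n (-S) := IsWeightedHomogeneous.neg h

lemma deg_sum {ι : Type*} (s : Finset ι) {n : ℕ} {S : ι → P20} (h : ∀ i ∈ s, Deg n (S i)) :
    Deg n (∑ i ∈ s, S i) := IsWeightedHomogeneous.sum s S n h

lemma deg_mul {m n k : ℕ} {S T : P20} (h : Deg m S) (h' : Deg n T) (hk : m + n = k) :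
    Deg k (S * T) := hk ▸ IsWeightedHomogeneous.mul h h'

lemma deg_C_mul {n : ℕ} {S : P20} (a : ℂ) (h : Deg n S) : Deg n (C a * S) :=
  IsWeightedHomogeneous.C_mul h a

lemma deg_pderiv {n n' : ℕ} {S : P20} (i : Fin 5 × Ix) (h : Deg n S) (h' : n' + wt i = n) :
    Deg n' (pderiv i S) := IsWeightedHomogeneous.pderiv h h'

lemma deg_aeval (f : Fin 5 × Ix → P20) (hf : ∀ i, Deg (wt i) (f i)) {n : ℕ} {S : P20}
    (h : Deg n S) : Deg n (aeval f S) := by
  induction h using IsWeightedHomogeneous.induction_on with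
  | zero =>
    rw [map_zero]
    exact MvPolynomial.isWeightedHomogeneous_zero ℂ _ n
  | add p q hp hq h1 h2 =>
    rw [map_add]
    exact deg_add h1 h2
  | monomial d r hr =>
    rw [MvPolynomial.aeval_monomial, ← hr, Finsupp.weight_apply]
    exact deg_C_mul r (IsWeightedHomogeneous.prod d.support (fun i => f i ^ d i)
      (fun i => d i • wt i) fun i _ => IsWeightedHomogeneous.pow (hf i) (d i))

lemma deg_s12 {n : ℕ} {S : P20} (h : Deg n S) : Deg n (s12 S) := by
  refine deg_aeval _ (fun i => ?_) h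
  obtain ⟨j, m⟩ := i
  fin_cases j
  · exact deg_X (1, m)
  · exact deg_X (0, m)
  · exact deg_X (2, m)
  · exact deg_neg (deg_X (3, m))
  · exact deg_sub (deg_X (4, m)) (deg_X (3, m))

lemma deg_s13 {n : ℕ} {S : P20} (h : Deg n S) : Deg n (s13 S) := by
  refine deg_aeval _ (fun i => ?_) h
  obtain ⟨j, m⟩ := i
  fin_cases j
  · exact deg_X (2, m)
  · exact deg_X (1, m)
  · exact deg_X (0, m)
  · exact deg_X (4, m)
  · exact deg_X (3, m)

lemma deg_om (w : Ix → V) {S : P20} (h : Deg 4 S) : Deg 4 (om w S) := by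
  refine deg_sum _ fun j _ => deg_sum _ fun m _ => deg_sum _ fun n _ => ?_
  have h1 : wt (j, n) ≤ 1 := by
    unfold wt
    split_ifs <;> omega
  have h2 : wt (j, m) = wt (j, n) := rfl
  exact deg_mul (deg_C_mul _ (deg_X (j, m))) (deg_pderiv (n' := 4 - wt (j, n)) (j, n) h (by omega))
    (by omega)

lemma deg_d1 {n : ℕ} {S : P20} (h : Deg (n + 1) S) : Deg n (d1 S) :=
  deg_sum _ fun m _ => deg_mul (deg_X (0, m)) (deg_pderiv (n' := n) (3, m) h rfl) (zero_add _)

lemma deg_d3 {n : ℕ} {S : P20} (h : Deg (n + 1) S) : Deg n (d3 S) :=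
  deg_sum _ fun m _ => deg_mul (deg_X (2, m)) (deg_pderiv (n' := n) (4, m) h rfl) (zero_add _)

lemma deg_X0 {n : ℕ} {S : P20} (m : Ix) (h : Deg n S) : Deg n (X (0, m) * S) :=
  deg_mul (deg_X (0, m)) h (zero_add _)

/-- exchange of the points 2 and 3 -/
def s23 : P20 →ₐ[ℂ] P20 := aeval fun i : Fin 5 × Ix =>
  ![X (0, i.2), X (2, i.2), X (1, i.2), X (3, i.2) - X (4, i.2), -X (4, i.2)] i.1

lemma s23_eq (S : P20) : s23 S = s12 (s13 (s12 S)) := by
  have h : s23 = s12.comp (s13.comp s12) := by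
    refine MvPolynomial.algHom_ext fun i => ?_
    obtain ⟨j, m⟩ := i
    fin_cases j <;> simp [s12, s13, s23]
    ring
  rw [h]
  rfl

lemma deg_s23 {n : ℕ} {S : P20} (h : Deg n S) : Deg n (s23 S) := by
  rw [s23_eq]
  exact deg_s12 (deg_s13 (deg_s12 h))

/-- derivations commute with a substitution if they do on the variables -/
lemma comm (s : P20 →ₐ[ℂ] P20) (D D' : Derivation ℂ P20 P20)
    (h : ∀ i, D (s (X i)) = s (D' (X i))) (S : P20) : D (s S) = s (D' S) := by
  induction S using MvPolynomial.induction_on with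
  | C a =>
    have h1 : s (C a) = C a := s.commutes a
    rw [h1, MvPolynomial.derivation_C, MvPolynomial.derivation_C, map_zero]
  | add p q h1 h2 => rw [map_add, map_add, map_add, map_add, h1, h2]
  | mul_X p i h1 =>
    rw [map_mul, Derivation.leibniz, Derivation.leibniz, h1, h i, smul_eq_mul, smul_eq_mul,
      smul_eq_mul, smul_eq_mul, map_add, map_mul, map_mul]

lemma p3_s23 (m : Ix) (S : P20) : pderiv (3, m) (s23 S) = s23 (pderiv (3, m) S) := by
  refine comm s23 _ _ (fun i => ?_) S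
  obtain ⟨j, n⟩ := i
  by_cases h : n = m
  · subst h
    fin_cases j <;> simp [s23, MvPolynomial.pderiv_X, Pi.single_apply]
  · fin_cases j <;> simp [s23, MvPolynomial.pderiv_X, Pi.single_apply, h]

lemma p2_s23 (m : Ix) (S : P20) : pderiv (2, m) (s23 S) = s23 (pderiv (1, m) S) := by
  refine comm s23 _ _ (fun i => ?_) S
  obtain ⟨j, n⟩ := i
  by_cases h : n = m
  · subst h
    fin_cases j <;> simp [s23, MvPolynomial.pderiv_X, Pi.single_apply]
  · fin_cases j <;> simp [s23, MvPolynomial.pderiv_X, Pi.single_apply, h]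

lemma p4_s23 (m : Ix) (S : P20) : pderiv (4, m) (s23 S) = s23 (D2 m S) := by
  have h0 : D2 m S = (-(pderiv (3, m) + pderiv (4, m)) : Derivation ℂ P20 P20) S := by
    simp [D2]
  rw [h0]
  refine comm s23 _ _ (fun i => ?_) S
  obtain ⟨j, n⟩ := i
  by_cases h : n = m
  · subst h
    fin_cases j <;> simp [s23, MvPolynomial.pderiv_X, Pi.single_apply]
  · fin_cases j <;> simp [s23, MvPolynomial.pderiv_X, Pi.single_apply, h]

lemma s23_X0 (m : Ix) : s23 (X (0, m)) = X (0, m) := by simp [s23]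

lemma s23_X1 (m : Ix) : s23 (X (1, m)) = X (2, m) := by simp [s23]

lemma s23_C (a : ℂ) : s23 (C a) = C a := s23.commutes a

lemma d1_s23 (S : P20) : d1 (s23 S) = s23 (d1 S) := by
  simp only [d1, map_sum, map_mul, s23_X0, p3_s23]

lemma d3_s23 (S : P20) : d3 (s23 S) = s23 (RS.d2 S) := by
  simp only [d3, RS.d2, map_sum, map_mul, s23_X1, p4_s23]

lemma box3_s23 (S : P20) : box3 (s23 S) = s23 (box2 S) := by
  simp only [box3, box2, map_sum, map_mul, s23_C, p4_s23]

lemma dd3_s23 (S : P20) : dd3 (s23 S) = s23 (dd2 S) := by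
  simp only [dd3, dd2, map_sum, map_mul, s23_C, p4_s23, p2_s23]

end

end Vale.Agent.P352X.RS.Coc
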