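import Vale.Agent.P352X.R.RES.RedA

/-!
# P352X, row RES.diva: algebra (the Fischer pairing, the use of NULL)
-/

set_option linter.all false

open scoped ContDiff

namespace Vale.Agent.P352X.RS.Dva

open Vale.Agent.P352 Vale.Agent.P352.GF
open MvPolynomial (X C pderiv aeval monomial coeff)
open Complex (I)
open Red

noncomputable section

abbrev P4 := MvPolynomial Ix ℂ

theorem eta_sq (i : Ix) : (eta i : ℂ) * eta i = 1 := by
  unfold eta
  split_ifs <;> simp

def fw (α : Ix →₀ ℕ) : ℂ := ∏ i, ((α i).factorial : ℂ) * (eta i : ℂ) ^ α i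

/-- the Fischer pairing -/
def fi : P4 →ₗ[ℂ] P4 →ₗ[ℂ] ℂ :=
  (MvPolynomial.basisMonomials Ix ℂ).constr ℂ fun α => fw α • MvPolynomial.lcoeff ℂ α

theorem fi_mon (α : Ix →₀ ℕ) (a : ℂ) (w : P4) : fi (monomial α a) w = a * (fw α * coeff α w) := by
  have := (MvPolynomial.basisMonomials Ix ℂ).constr_basis ℂ
    (fun α => fw α • MvPolynomial.lcoeff ℂ α) α
  rw [show monomial α a = a • monomial α (1 : ℂ) by simp [MvPolynomial.smul_monomial], map_smul]
  exact congrArg (fun l : P4 →ₗ[ℂ] ℂ => a * l w) this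

theorem fw_add (α : Ix →₀ ℕ) (i : Ix) :
    fw (α + Finsupp.single i 1) = eta i * (α i + 1) * fw α := by
  rw [fw, fw, ← Finset.mul_prod_erase _ _ (Finset.mem_univ i),
    ← Finset.mul_prod_erase _ _ (Finset.mem_univ i), Finset.prod_congr rfl fun j hj => by
      rw [Finsupp.add_apply, Finsupp.single_eq_of_ne (Finset.ne_of_mem_erase hj), add_zero]]
  simp [Nat.factorial_succ, pow_succ]
  ring

theorem fi_adj (i : Ix) (q w : P4) : fi (X i * q) w = eta i * fi q (pderiv i w) := by
  induction q using MvPolynomial.induction_on' with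
  | monomial α a =>
    rw [mul_comm, ← pow_one (X i : P4), ← MvPolynomial.monomial_add_single, fi_mon, fi_mon, fw_add,
      MvPolynomial.coeff_pderiv]
    ring
  | add p q hp hq => simp only [mul_add, map_add, LinearMap.add_apply, hp, hq]

theorem fi_symm (q w : P4) : fi q w = fi w q := by
  classical
  induction q using MvPolynomial.induction_on' with
  | add p q hp hq => simp only [map_add, LinearMap.add_apply, hp, hq]
  | monomial α a =>
    induction w using MvPolynomial.induction_on' with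
    | add p q hp hq => simp only [map_add, LinearMap.add_apply, hp, hq]
    | monomial β b =>
      rw [fi_mon, fi_mon, MvPolynomial.coeff_monomial, MvPolynomial.coeff_monomial]
      by_cases h : α = β
      · simp [h]
        ring
      · simp [h, Ne.symm h]

theorem fisch : Fisch fi :=
  ⟨fi_adj, fun i q w => by rw [fi_symm, fi_adj, fi_symm]⟩

/-- the pairing is determined by the first adjunction -/
theorem uniq {B : P4 → P4 → ℂ} {κ : ℂ} (hl : ∀ w, IsLinearMap ℂ fun q => B q w)
    (h0 : ∀ b, B 1 (C b) = b * κ) (h1 : ∀ e i q w, q.IsHomogeneous e → w.IsHomogeneous (e + 1) →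
      B (X i * q) w = -I * eta i * B q (pderiv i w)) (d : ℕ) {q w : P4} (hq : q.IsHomogeneous d)
    (hw : w.IsHomogeneous d) : B q w = (-I) ^ d * κ * fi q w := by
  induction d generalizing q w with
  | zero =>
    rw [← MvPolynomial.totalDegree_zero_iff_isHomogeneous,
      MvPolynomial.totalDegree_eq_zero_iff_eq_C] at hq hw
    rw [hq, hw, MvPolynomial.C_apply (a := coeff 0 q), fi_mon, ← MvPolynomial.C_apply,
      ← mul_one (C (coeff 0 q)), MvPolynomial.C_mul', (hl _).map_smul, h0]
    simp [fw]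
    ring
  | succ d ih =>
    refine mul_left_cancel₀ (Nat.cast_ne_zero (R := ℂ).2 d.succ_ne_zero) ?_
    have e := hq.sum_X_mul_pderiv
    rw [← Nat.cast_smul_eq_nsmul ℂ] at e
    have a := congrArg ((hl w).mk' _) e
    have b := congrArg (fi · w) e
    simp only [map_sum, map_smul, IsLinearMap.mk'_apply, LinearMap.sum_apply, smul_eq_mul,
      LinearMap.smul_apply, fi_adj] at a b
    rw [← a, mul_left_comm, ← b, Finset.mul_sum]
    refine Finset.sum_congr rfl fun i _ => ?_
    rw [h1 d i _ _ hq.pderiv hw, ih hq.pderiv hw.pderiv]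
    ring

/-- the restriction to `h = 0`, `u = 0` -/
def w4 : P20 →ₐ[ℂ] P4 := aeval fun i : Fin 5 × Ix => ![0, 0, 0, 0, X i.2] i.1

theorem w4_pd (m : Ix) (S : P20) : pderiv m (w4 S) = w4 (pderiv (4, m) S) := by
  classical
  induction S using MvPolynomial.induction_on with
  | C a => simp
  | add p q hp hq => simp only [map_add, hp, hq]
  | mul_X p k hp =>
    have h : pderiv m (w4 (X k)) = w4 (pderiv (4, m) (X k)) := by
      obtain ⟨j, n⟩ := k
      fin_cases j <;> simp [w4, MvPolynomial.pderiv_X, Pi.single_apply, apply_ite]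
    simp only [map_mul, Derivation.leibniz, map_add, smul_eq_mul, hp, h]

theorem w4_deg {n : ℕ} {S : P20} (h : Deg n S) : (w4 S).IsHomogeneous n := by
  induction h using MvPolynomial.IsWeightedHomogeneous.induction_on with
  | zero => simpa using MvPolynomial.isHomogeneous_zero _ _ _
  | add p q _ _ hp hq => simpa using hp.add hq
  | monomial d r hr =>
    rw [w4, MvPolynomial.aeval_monomial, ← hr, Finsupp.weight_apply]
    refine .C_mul (.prod _ _ _ fun ⟨j, m⟩ _ => ?_) _
    beta_reduce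
    rw [smul_eq_mul, mul_comm]
    refine .pow ?_ _
    fin_cases j
    exacts [MvPolynomial.isHomogeneous_zero _ _ _, MvPolynomial.isHomogeneous_zero _ _ _,
      MvPolynomial.isHomogeneous_zero _ _ _, MvPolynomial.isHomogeneous_zero _ _ _,
      MvPolynomial.isHomogeneous_X _ _]

theorem ev_w4 (S : P20) (v : V) : evp (w4 S) v = ev8 S (0, v) := by
  induction S using MvPolynomial.induction_on with
  | C a => simp [evp, ev8_C]
  | add p q hp hq => rw [map_add, ev8_add, ← hp, ← hq, evp, map_add]; rfl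
  | mul_X p k hp =>
    rw [map_mul, ev8_mul, ← hp, evp, map_mul, ev8_X]
    obtain ⟨j, n⟩ := k
    congr 1
    fin_cases j <;> simp [w4, cv]

/-- harmonic part plus gauge part -/
def Nl (d : ℕ) (S : P20) : Prop :=
  ∃ Ξ ζ, Deg d Ξ ∧ Deg (d + 1) ζ ∧ box3 Ξ = 0 ∧ dd3 Ξ = 0 ∧ S = Ξ + d3 ζ

theorem pd_box (i) (S : P20) : box3 (pderiv i S) = pderiv i (box3 S) := by
  simp only [box3, map_sum, MvPolynomial.pderiv_C_mul, pd_comm i]

theorem pd_dd (i) (S : P20) : dd3 (pderiv i S) = pderiv i (dd3 S) := by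
  simp only [dd3, map_sum, MvPolynomial.pderiv_C_mul, pd_comm i]

theorem Nl.pd {d e : ℕ} {S : P20} (h : Nl d S) {j : Fin 5} (hj : j ≠ 2) (m : Ix)
    (he : e + (if 3 ≤ j then 1 else 0) = d) : Nl e (pderiv (j, m) S) := by
  classical
  obtain ⟨Ξ, ζ, h1, h2, h3, h4, rfl⟩ := h
  refine ⟨pderiv (j, m) Ξ, pderiv (j, m) ζ, h1.pderiv he, h2.pderiv (by simp only [← he]; ring),
    by rw [pd_box, h3, map_zero], by rw [pd_dd, h4, map_zero], ?_⟩
  simp [d3, MvPolynomial.pderiv_X, Pi.single_apply, hj.symm, pd_comm (j, m)]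

theorem Nl.deg {d : ℕ} {S : P20} (h : Nl d S) : Deg d S := by
  obtain ⟨Ξ, ζ, h1, h2, -, -, rfl⟩ := h
  refine h1.add (.sum _ _ _ fun m _ => ?_)
  simpa using (MvPolynomial.isWeightedHomogeneous_X ℂ _ ((2, m) : Fin 5 × Ix)).mul
    (h2.pderiv (i := (4, m)) (n' := d) rfl)

/-- the hypotheses of NULL on the overlap polynomials -/
structure Ov (d : ℕ) (π : Ix → Ix → P4) : Prop where
  hom : ∀ r s, (π r s).IsHomogeneous d
  sym : ∀ r s, π r s = π s r
  con : ∀ s, ∑ r, C (eta r : ℂ) * X r * π r s = 0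
  div : ∀ r s k, mup ∣ π r s * X k - π k s * X r

theorem null (hN : NULL) {d : ℕ} {π : Ix → Ix → P4} (h : Ov d π) {S : P20} (hS : Nl d S) :
    ∑ K : I2, fi (π K.1 K.2) (w4 (dp 2 K S)) = 0 := by
  classical
  obtain ⟨Ξ, ζ, h1, h2, h3, h4, rfl⟩ := hS
  have a := hN fi d π (fun r s => w4 (dp 2 (r, s) Ξ)) fisch h.hom h.sym h.con h.div
    (fun r s => w4_deg (dp_deg h1 (by decide) _)) (fun r s => by rw [dp, dp, pd_comm])
    (fun r s => by
      have : box3 (dp 2 (r, s) Ξ) = 0 := by rw [dp, pd_box, pd_box, h3, map_zero, map_zero]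
      simpa only [box3, map_sum, map_mul, MvPolynomial.algHom_C, MvPolynomial.algebraMap_eq,
        map_zero, w4_pd] using congrArg w4 this)
    (by simpa only [dd3, dp, map_sum, map_mul, MvPolynomial.algHom_C, MvPolynomial.algebraMap_eq,
        map_zero, w4_pd, Complex.ofReal_mul] using congrArg w4 h4)
  have g : ∀ s Z, ∑ r, fi (π r s) (pderiv r Z) = 0 := fun s Z => by
    have := congrArg (fi · Z) (h.con s)
    simpa [mul_assoc, MvPolynomial.C_mul', fi_adj, ← mul_assoc, eta_sq] using this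
  have e : ∀ r s, w4 (dp 2 (r, s) (d3 ζ)) = pderiv r (w4 (pderiv (2, s) ζ)) +
      pderiv s (w4 (pderiv (2, r) ζ)) := fun r s => by
    rw [w4_pd, w4_pd, pd_comm (4, r), pd_comm (4, s)]
    have k : ∀ r ζ, pderiv (2, r) (d3 ζ) = pderiv (4, r) ζ + d3 (pderiv (2, r) ζ) := fun r ζ => by
      simp [d3, MvPolynomial.pderiv_X, Pi.single_apply, Finset.sum_add_distrib, pd_comm (2, r),
        add_comm]
    rw [dp, k, map_add, k, map_add, map_add, show w4 (d3 _) = 0 by simp [w4, d3], add_zero,
      pd_comm (2, s), add_comm]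
  simp only [Fintype.sum_prod_type, dp_add, map_add, Finset.sum_add_distrib, a, e, zero_add]
  rw [Finset.sum_comm, Finset.sum_eq_zero fun s _ => g s _, Finset.sum_eq_zero fun r _ => ?_,
    add_zero]
  simpa only [h.sym r] using g r _

/-- iterated derivatives in `u` -/
def dU : (k : ℕ) → (Fin k → Ix) → P20 → P20
  | 0, _, S => S
  | k + 1, γ, S => pderiv (3, γ 0) (dU k (Fin.tail γ) S)

theorem dU_pd (k : ℕ) (γ : Fin k → Ix) (i) (S : P20) :
    dU k γ (pderiv i S) = pderiv i (dU k γ S) := by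
  induction k with
  | zero => rfl
  | succ k ih => rw [dU, dU, ih, pd_comm]

theorem Nl.dU {d k : ℕ} {S : P20} (h : Nl (d + k) S) (γ : Fin k → Ix) : Nl d (dU k γ S) := by
  induction k generalizing d with
  | zero => exact h
  | succ k ih => exact (ih (d := d + 1) (by rwa [add_right_comm]) _).pd (by decide) _ rfl

theorem ev8_du (m : Ix) (S : P20) (z : V × V) :
    fderiv ℝ (ev8 S) z (bas m 1, 0) = ev8 (pderiv (3, m) S) z := by
  rw [ev8_der, Finset.sum_eq_single (3, m) (fun ⟨j, n⟩ _ h => by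
    fin_cases j <;> simp_all [cv, bas]) (by simp)]
  simp [cv, bas]

theorem iter_ev8 (k : ℕ) (γ : Fin k → Ix) (S : P20) (u v : V) :
    iteratedFDeriv ℝ k (fun u => ev8 S (u, v)) u (fun i => bas (γ i) 1) = ev8 (dU k γ S) (u, v) := by
  induction k generalizing u with
  | zero => simp [dU]
  | succ k ih =>
    have s : ContDiff ℝ ∞ fun u => ev8 S (u, v) :=
      (ev8_smooth S).comp (contDiff_id.prodMk contDiff_const)
    rw [iteratedFDeriv_succ_apply_left, ← fderiv_continuousMultilinear_apply_const_apply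
      (s.differentiable_iteratedFDeriv (by exact_mod_cast ENat.coe_lt_top k) u),
      show (fun y => iteratedFDeriv ℝ k (fun u => ev8 S (u, v)) y
        (Fin.tail fun i => bas (γ i) 1)) = ev8 (dU k (Fin.tail γ) S) ∘ fun y => (y, v) from
        funext (ih _), ((ev8_diff _ _).hasFDerivAt.comp u (hasFDerivAt_prodMk_left u v)).fderiv]
    exact ev8_du _ _ _

end

end Vale.Agent.P352X.RS.Dva
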