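import Vale.Agent.P352X.R.RES.DvA
import Vale.Agent.P352X.Api3d
import Vale.Agent.P352X.R.TWO.Ft

/-!
# P352X, row RES.diva: the distributions with polynomial density on the light cones
-/

set_option linter.all false

open MeasureTheory Filter Topology Metric
open scoped ContDiff SchwartzMap LineDeriv

namespace Vale.Agent.P352X.RS.Dva

open Vale.Agent.P352 Vale.Agent.P352.GF Vale.Agent.P352.BW Vale.Agent.P352.H246
open Vale.Agent.P352.H496 Vale.Agent.P352.H755 Vale.Agent.P352.H15
open MvPolynomial (X C pderiv)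
open Complex (I)
open Api4 SchwartzMap

noncomputable section

theorem tev (q : P4) : (evp q).HasTemperateGrowth := temperate_evp q (.id ℝ V)

theorem evp_add (p q : P4) (v : V) : evp (p + q) v = evp p v + evp q v := map_add _ _ _

theorem evp_mul (p q : P4) (v : V) : evp (p * q) v = evp p v * evp q v := map_mul _ _ _

theorem evp_C (a : ℂ) (v : V) : evp (C a) v = a := MvPolynomial.eval_C _

theorem evp_X (i : Ix) (v : V) : evp (X i) v = v i := MvPolynomial.eval_X _

theorem evp_hom {e : ℕ} {q : P4} (hq : q.IsHomogeneous e) (t : ℝ) (p : V) :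
    evp q (t • p) = (t : ℂ) ^ e * evp q p := by
  rw [evp, evp, MvPolynomial.eval_eq', MvPolynomial.eval_eq', Finset.mul_sum]
  refine Finset.sum_congr rfl fun d hd => ?_
  rw [← hq (MvPolynomial.mem_support_iff.1 hd), Finsupp.weight_apply,
    Finsupp.sum_fintype _ _ (by simp)]
  simp [mul_pow, Finset.prod_mul_distrib, Finset.prod_pow_eq_pow_sum, mul_left_comm]

theorem evp_diff (q : P4) (v : V) : DifferentiableAt ℝ (evp q) v :=
  (tev q).1.differentiable (by simp) v

theorem evp_der (q : P4) (v y : V) :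
    fderiv ℝ (evp q) v y = ∑ i, y i * evp (pderiv i q) v := by
  classical
  induction q using MvPolynomial.induction_on with
  | C a =>
    rw [funext (evp_C a)]
    simp [evp]
  | add p q hp hq =>
    rw [funext (evp_add p q), fderiv_fun_add (evp_diff p v) (evp_diff q v)]
    simp only [ContinuousLinearMap.add_apply, hp, hq, map_add, evp_add, mul_add,
      Finset.sum_add_distrib]
  | mul_X p k hp =>
    rw [funext (evp_mul p _), fderiv_fun_mul (evp_diff p v) (evp_diff _ v), funext (evp_X k),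
      show fderiv ℝ (fun v : V => (v k : ℂ)) v = _ from
        (Complex.ofRealCLM ∘L ContinuousLinearMap.proj (φ := fun _ => ℝ) k).fderiv]
    simp [hp, MvPolynomial.pderiv_X, Pi.single_apply, evp_add, evp_mul, evp_X, mul_add,
      Finset.sum_add_distrib, Finset.mul_sum, apply_ite (evp · v), show evp 0 v = 0 from map_zero _,
      mul_comm, mul_left_comm]

theorem evp_E {e : ℕ} {q : P4} (hq : q.IsHomogeneous e) (v : V) :
    fderiv ℝ (evp q) v v = e * evp q v := by
  have := congrArg (MvPolynomial.eval fun m => (v m : ℂ)) hq.sum_X_mul_pderiv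
  simpa [evp_der, evp] using this

theorem tg (s : Set V) : (volume.restrict s).HasTemperateGrowth :=
  ⟨(Measure.HasTemperateGrowth.exists_integrable (μ := volume)).imp fun _ h => h.restrict⟩

/-- the reflection -/
def rf : Sch ≃L[ℂ] Sch := FT.cE (ContinuousLinearEquiv.neg ℝ)

theorem pw_app (q : P4) (h : Sch) (p : V) :
    smulLeftCLM ℂ (evp q) (rf (ftS h)) p = evp q p * ft (ev h) (-p) :=
  (smulLeftCLM_apply_apply (tev q) _ p).trans (congrArg _ (ftS_apply h _))

theorem int_L (s : Set V) (q : P4) (h : Sch) :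
    IntegrableOn (fun p => evp q p * ft (ev h) (-p)) s :=
  (funext (pw_app q h) ▸ (smulLeftCLM ℂ (evp q) (rf (ftS h))).integrable).integrableOn

def Lc0 (s : Set V) (q : P4) : Sch →L[ℂ] ℂ :=
  haveI := tg s
  integralCLM ℂ (volume.restrict s) ∘L smulLeftCLM ℂ (evp q) ∘L (ftS.trans rf : Sch →L[ℂ] Sch)

theorem Lc0_app (s : Set V) (q : P4) (h : Sch) :
    Lc0 s q h = ∫ p in s, evp q p * ft (ev h) (-p) :=
  integral_congr_ae (.of_forall (pw_app q h))

/-- the distribution with the Fourier transform `q` on `s` -/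
def Lc (s : Set V) : P4 →ₗ[ℂ] Sch →L[ℂ] ℂ where
  toFun := Lc0 s
  map_add' p q := by
    ext h
    simp only [ContinuousLinearMap.add_apply, Lc0_app, evp_add, add_mul]
    exact integral_add (int_L s p h) (int_L s q h)
  map_smul' a q := by
    ext h
    simp only [ContinuousLinearMap.smul_apply, Lc0_app, MvPolynomial.smul_eq_C_mul, evp_mul, evp_C,
      mul_assoc, integral_const_mul, RingHom.id_apply, smul_eq_mul]

theorem Lc_app (s : Set V) (q : P4) (h : Sch) :
    Lc s q h = ∫ p in s, evp q p * ft (ev h) (-p) := Lc0_app s q h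

theorem Lc_der (s : Set V) (q : P4) (i : Ix) (h : Sch) :
    Lc s q (∂_{bas i 1} h) = I * eta i * Lc s (X i * q) h := by
  rw [Lc_app, Lc_app, ← integral_const_mul]
  refine integral_congr_ae (.of_forall fun p => ?_)
  have := ft_fd ⟨h, rfl⟩ (bas i 1) (-p)
  beta_reduce
  rw [show ft (ev (∂_{bas i 1} h)) (-p) = _ from this, evp_mul, evp_X]
  simp [GF.mdot, bas]
  ring

theorem Lc_E {s : Set V} (hs : ∀ t : ℝ, 0 < t → ∀ p, t • p ∈ s ↔ p ∈ s) {e : ℕ} {q : P4}
    (hq : q.IsHomogeneous e) {h h' : Sch} (e' : ∀ x, h' x = fderiv ℝ h x x) :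
    Lc s q h' = e * Lc s q h := by
  let F : ℝ → Sch := fun t =>
    FT.cE (ContinuousLinearEquiv.smulLeft (Units.mk0 (Real.exp t) (Real.exp_ne_zero t))) h
  have F0 : F 0 = h := by
    ext x
    exact congrArg h (by simp)
  have k : ∀ t, Lc s q (F t) = Complex.exp (e * t) * Lc s q h := fun t => by
    have h0 := Real.exp_pos t
    have a := ((conf_smul h0.ne').sc.restrict s).integral fun p => evp q p * ft (ev (F t)) (-p)
    have b : ∀ p, ft (ev (F t)) (-(Real.exp t • p)) =
        (((Real.exp t ^ 2) ^ 2)⁻¹ : ℝ) * ft (ev h) (-p) := fun p =>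
      (ft_conf0 (conf_smul h0.ne') (ev h) _).trans (by
        rw [smul_neg, smul_neg, smul_smul, smul_smul, mul_assoc _ _ (Real.exp t), ← pow_two,
          inv_mul_cancel₀ (by positivity), one_smul])
    rw [show (fun p => Real.exp t • p) ⁻¹' s = s from Set.ext (hs _ h0)] at a
    simp only [b, evp_hom hq, mul_assoc, mul_left_comm (evp q _), integral_const_mul,
      Complex.real_smul, ← Lc_app] at a
    rw [mul_left_comm, mul_right_inj' (by simp [h0.ne'])] at a
    rw [← a, Complex.exp_nat_mul, Complex.ofReal_exp]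
  have d := Lie.der (g := fun t => Real.exp t • 1) (a := fun _ => 0) (F := h) (F' := h') (Ft := F)
    ((Real.hasDerivAt_exp 0).smul_const (1 : V →L[ℝ] V)) (hasDerivAt_const _ _) (by simp) rfl
    (.of_forall fun t x => congrArg h (by simp)) fun x => by simp [e']
  have d1 : HasDerivAt (fun t => Lc s q (F t)) (Lc s q h') 0 :=
    hasDerivAt_iff_tendsto_slope_zero.2 ((((Lc s q).continuous.tendsto _).comp d).congr
      fun t => by simp [F0])
  rw [funext k] at d1
  simpa using d1.unique (((hasDerivAt_id (0 : ℂ)).const_mul (e : ℂ)).cexp.comp_ofReal.mul_const _)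

/-- the backward cone -/
def nF : Set V := (fun p => -p) ⁻¹' Fc

theorem Lc_nF (q : P4) (h : Sch) : Lc nF q h = ∫ p in Fc, evp q (-p) * ft (ev h) p := by
  simpa only [Lc_app, neg_neg, one_smul, nF] using
    (sc_neg.restrict Fc).integral fun p => evp q (-p) * ft (ev h) p

/-- the commutator functions vanish at spacelike points -/
theorem loc (hG : GFF) (q : P4) (h : Sch) (hc : HasCompactSupport h)
    (hs : tsupport h ⊆ {z | mu z < 0}) : Lc Fc q h = Lc nF q h := by
  induction q using MvPolynomial.induction_on generalizing h with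
  | C a =>
    simp only [Lc_app Fc, Lc_nF, evp_C, integral_const_mul, hG.loc (ev h) ⟨⟨h, rfl⟩, hc, hs⟩]
  | add p q hp hq => simp only [map_add, ContinuousLinearMap.add_apply, hp h hc hs, hq h hc hs]
  | mul_X p i hp =>
    have := hp (∂_{bas i 1} h) (hc.of_isClosed_subset (isClosed_tsupport _)
      (tsupport_lineDerivOp_subset _ _)) ((tsupport_lineDerivOp_subset _ _).trans hs)
    rwa [Lc_der, Lc_der, mul_right_inj' (mul_ne_zero Complex.I_ne_zero
      (left_ne_zero_of_mul_eq_one (eta_sq i))), mul_comm] at this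

/-- the closed forward cone -/
def Cl (w : V) : Prop := 0 ≤ w o ∧ 0 ≤ GF.mdot w w

theorem Cl.le {w : V} (h : Cl w) : ‖w‖ ≤ w o := by
  have := h.2
  rw [mdot_eq] at this
  refine (pi_norm_le_iff_of_nonneg h.1).2 fun i => abs_le_of_sq_le_sq ?_ h.1
  fin_cases i <;> simp [o] <;> nlinarith [sq_nonneg (w 1), sq_nonneg (w 2), sq_nonneg (w 3)]

theorem closed_Cl : IsClosed {w | Cl w} :=
  (isClosed_le continuous_const (continuous_apply o)).inter (isClosed_le continuous_const cont_mu)

/-- partitions of unity that separate the two cones in `O` -/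
structure Cf (O : Set V) (ε : ℝ) (a : V → ℂ) : Prop where
  pos : 0 < ε
  tg : a.HasTemperateGrowth
  A : ∀ v ∈ O, v ∈ tsupport a → ∀ u, ‖u‖ < ε → ¬ Cl (u - v)
  B : ∀ v ∈ O, v ∈ tsupport (1 - a) → ∀ u, ‖u‖ < ε → ¬ Cl (v - u)

theorem ex_cf {r R : ℝ} (hr : 0 < r) (hR : r < R) :
    ∃ a, Cf {v | r < ‖v‖ ∧ ‖v‖ < R} (r / 4) a := by
  let b : ContDiffBump R := ⟨R - r / 2, R + r / 2, by linarith, by linarith⟩
  refine ⟨fun v => b (v o), by positivity, Complex.ofRealCLM.hasTemperateGrowth.comp
    ((b.hasCompactSupport.hasTemperateGrowth b.contDiff).comp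
      (ContinuousLinearMap.proj (R := ℝ) (φ := fun _ => ℝ) o).hasTemperateGrowth),
    fun v hv h u hu k => ?_, fun v hv h u hu k => ?_⟩
  · have : -(r / 2) ≤ v o := closure_minimal (t := {v : V | -(r / 2) ≤ v o})
      (fun v (hv : (b (v o) : ℂ) ≠ 0) => by_contra fun k => hv (Complex.ofReal_eq_zero.2 (b.zero_of_le_dist
        (le_abs.2 (.inr (by simp only [b]; linarith [not_le.1 (show ¬ _ ≤ v o from k)]))))))
      (isClosed_le continuous_const (continuous_apply o)) h
    have h1 := k.le
    have h2 := norm_sub_norm_le v u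
    rw [norm_sub_rev] at h2
    have h3 := (le_abs_self _).trans (norm_le_pi_norm u o)
    rw [Pi.sub_apply] at h1
    linarith [hv.1]
  · have : v o ≤ r / 2 ∨ R ≤ v o := closure_minimal (t := {v : V | v o ≤ r / 2 ∨ R ≤ v o})
      (fun v (hv : 1 - (b (v o) : ℂ) ≠ 0) => by_contra fun k => hv (sub_eq_zero.2
        (Complex.ofReal_eq_one.2
        (b.one_of_mem_closedBall (abs_le (a := v o - R) (b := R - r / 2).2 (by
          constructor <;> linarith [not_le.1 (not_or.1 k).1, not_le.1 (not_or.1 k).2])))).symm))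
      ((isClosed_le (continuous_apply o) continuous_const).union
        (isClosed_le continuous_const (continuous_apply o))) h
    have h1 := k.le
    have h2 := norm_sub_norm_le v u
    have h3 := (neg_le_abs _).trans (norm_le_pi_norm u o)
    have h4 := (le_abs_self _).trans (norm_le_pi_norm v o)
    rw [Pi.sub_apply] at h1
    rcases this with a | a <;> linarith [hv.1, hv.2]

variable {O : Set V} {ε : ℝ} {a : V → ℂ}

theorem ts_vec (θ : V → ℂ) (Y : V → V) :
    tsupport (fun v => fderiv ℝ θ v (Y v)) ⊆ tsupport (fderiv ℝ θ) :=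
  closure_mono fun x k e => k (by simp [e])

theorem mu_lt {v : V} (h1 : ¬ Cl (0 - v)) (h2 : ¬ Cl (v - 0)) : mu v < 0 := by
  by_contra! k
  rcases le_total 0 (v o) with e | e
  · exact h2 ⟨by simpa using e, by simpa [mu] using k⟩
  · exact h1 ⟨by simpa using e, by simpa [md_neg, md_neg_l, mu] using k⟩

theorem Cf.sp (ha : Cf O ε a) {v : V} (hv : v ∈ O) (h : v ∈ tsupport (fderiv ℝ a)) : mu v < 0 :=
  mu_lt (ha.A v hv (tsupport_fderiv_subset ℝ h) 0 (by simpa using ha.pos))
    (ha.B v hv (tsupport_fderiv_subset ℝ (by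
      rwa [show fderiv ℝ (1 - a) = -fderiv ℝ a from funext fun _ => fderiv_const_sub 1,
        tsupport_neg])) 0 (by simpa using ha.pos))

/-- the glued distribution -/
def Mu (a : V → ℂ) : P4 →ₗ[ℂ] Sch →L[ℂ] ℂ where
  toFun q := Lc nF q + (Lc Fc q - Lc nF q) ∘L smulLeftCLM ℂ a
  map_add' p q := by
    ext h
    simp
    ring
  map_smul' b q := by
    ext h
    simp
    ring

theorem Mu_app (q : P4) (h : Sch) :
    Mu a q h = Lc nF q h + (Lc Fc q (smulLeftCLM ℂ a h) - Lc nF q (smulLeftCLM ℂ a h)) := rfl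

/-- vector fields -/
theorem Mu_vec (hG : GFF) (ha : Cf O ε a) {Y : V → V} (hY : ContDiff ℝ ∞ Y) {q q' : P4} {κ : ℂ}
    (H : ∀ s ∈ ({Fc, nF} : Set (Set V)), ∀ h h' : Sch, (∀ x, h' x = fderiv ℝ h x (Y x)) →
      Lc s q h' = κ * Lc s q' h) {h : V → ℂ} (hc : Dc h) (hs : tsupport h ⊆ O) :
    Mu a q (sch fun x => fderiv ℝ h x (Y x)) = κ * Mu a q' (sch h) := by
  have h1 := dc_fderiv hc hY
  have h2 := dc_mul_left ha.tg.1 hc
  have h3 := dc_fderiv h2 hY
  have h4 := dc_mul_left ((ha.tg.1.fderiv_right (m := ∞) le_rfl).clm_apply hY) hc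
  have k : ∀ s ∈ ({Fc, nF} : Set (Set V)), ∀ {h : V → ℂ}, Dc h →
      Lc s q (sch fun x => fderiv ℝ h x (Y x)) = κ * Lc s q' (sch h) := fun s hs h hc =>
    H s hs _ _ fun x => by rw [sch_apply (dc_fderiv hc hY), coe_sch hc]
  have e : (fun x => a x * fderiv ℝ h x (Y x)) = fun x => fderiv ℝ (fun x => a x * h x) x (Y x) -
      fderiv ℝ a x (Y x) * h x := funext fun x => by
    rw [fderiv_fun_mul (ha.tg.1.differentiable (by simp) x) (hc.1.differentiable (by simp) x)]
    simp [mul_comm]
  rw [Mu_app, Mu_app, ← sch_mul ha.tg h1, ← sch_mul ha.tg hc, e, sch_sub h3 h4, map_sub, map_sub,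
    loc hG q (sch fun x => fderiv ℝ a x (Y x) * h x) (by rw [coe_sch h4]; exact h4.2) fun v hv => by
      rw [coe_sch h4] at hv
      exact ha.sp (hs (tsupport_mul_subset_right hv)) (ts_vec a Y (tsupport_mul_subset_left hv)),
    k _ (.inl rfl) h2, k _ (.inr rfl) h2, k _ (.inr rfl) hc]
  ring

/-- the pairing with the polynomials -/
theorem Mu_pair (hG : GFF) (ha : Cf O ε a) {θ : V → ℂ} (hθ : Dc θ)
    (hO : tsupport (fderiv ℝ θ) ⊆ O) : ∃ κ : ℂ, ∀ (d : ℕ) (q w : P4), q.IsHomogeneous d →
      w.IsHomogeneous d → Mu a q (sch fun v => Ef θ v * evp w v) = (-I) ^ d * κ * fi q w := by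
  have hE : Dc (Ef θ) := dc_fderiv hθ contDiff_id
  have s : ∀ (Y : V → V) (w : P4), tsupport (fun v => fderiv ℝ θ v (Y v) * evp w v) ⊆ O :=
    fun Y w => tsupport_mul_subset_left.trans ((ts_vec θ Y).trans hO)
  refine ⟨Mu a 1 (sch (Ef θ)), fun d q w => uniq (B := fun q w => Mu a q (sch fun v =>
    Ef θ v * evp w v)) (fun w => ⟨fun _ _ => by simp, fun _ _ => by simp⟩) (fun b => ?_)
    (fun e i q w hq hw => ?_) d⟩
  · simp only [evp_C, mul_comm _ b]
    rw [sch_const_mul b hE, map_smul, smul_eq_mul]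
  · have hi := dc_mul_right (dc_fderiv hθ (contDiff_const (c := bas i 1))) (tev w).1
    have k1 := Mu_vec hG ha (contDiff_const (c := bas i 1)) (q := q) (q' := X i * q)
      (fun s _ h h' e => by rw [show h' = ∂_{bas i 1} h from SchwartzMap.ext e, Lc_der])
      (dc_mul_right hE (tev w).1) (s id w)
    have k2 := Mu_vec hG ha contDiff_fun_id (q := q) (q' := q) (fun s hs h h' e => Lc_E (by
      rintro t ht p
      rcases hs with rfl | rfl
      exacts [Fc_smul ht, (smul_neg t p ▸ Fc_smul ht : -(t • p) ∈ Fc ↔ -p ∈ Fc)]) hq e) hi (s _ w)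
    have e : (fun x => fderiv ℝ (fun v => Ef θ v * evp w v) x (bas i 1)) = fun x =>
        Ef θ x * evp (pderiv i w) x + (fderiv ℝ (fun v => fderiv ℝ θ v (bas i 1) * evp w v) x x -
          e * (fderiv ℝ θ x (bas i 1) * evp w x)) := funext fun x => by
      have d := (hθ.1.fderiv_right (m := ∞) le_rfl).differentiable (by simp) x
      rw [fderiv_fun_mul (hE.1.differentiable (by simp) x) (evp_diff w x),
        fderiv_fun_mul (d.clm_apply (differentiableAt_const _)) (evp_diff w x),
        show Ef θ = fun z => fderiv ℝ θ z z from rfl, fderiv_clm_apply d differentiableAt_fun_id,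
        fderiv_clm_apply d (differentiableAt_const _)]
      simp [evp_E hw, evp_der w x (bas i 1), bas, apply_ite Complex.ofReal,
        (hθ.1.contDiffAt.isSymmSndFDerivAt (by simpa using ST.le_inf 2)).eq x]
      ring
    rw [e, sch_add (dc_mul_right hE (tev _).1) (dc_sub (dc_fderiv hi contDiff_fun_id)
      (dc_const_mul _ hi)), sch_sub (dc_fderiv hi contDiff_fun_id) (dc_const_mul _ hi),
      sch_const_mul _ hi, map_add, map_sub, map_smul, k2, smul_eq_mul,
      sub_self, add_zero] at k1
    rw [k1]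
    linear_combination (eta i * eta i * Complex.I_mul_I - eta_sq i) *
      Mu a (X i * q) (sch fun v => Ef θ v * evp w v)

/-- the correlation -/
def cor (g f : Sch) : Sch := ST.cnv volume (rf g) f

theorem cor_app (g f : Sch) (v : V) : cor g f v = ∫ y, g y * f (y + v) := by
  rw [cor, ST.cnv_apply, ← integral_neg_eq_self]
  exact integral_congr_ae (.of_forall fun y => congrArg₂ _ (congrArg g (neg_neg y))
    (congrArg f (by rw [sub_neg_eq_add, add_comm])))

theorem ft_cor (g f : Sch) (p : V) : ft (ev (cor g f)) p = ft (ev g) (-p) * ft (ev f) p :=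
  (Two.ft_cnv _ _ _).trans (congrArg (· * _) (ft_refl (ev g) p))

theorem far {u v : V} (hv : v ∈ closedBall (bas 1 10) 2) (hu : ‖u‖ < 1) :
    ¬ Cl (u - v) ∧ ¬ Cl (v - u) := by
  have k : ∀ i, |u i| < 1 ∧ |v i - bas 1 10 i| ≤ 2 := fun i =>
    ⟨(norm_le_pi_norm u i).trans_lt hu, (norm_le_pi_norm (v - bas 1 10) i).trans hv⟩
  have k0 := k 0
  have k1 := k 1
  simp only [abs_lt, abs_le, bas, if_true, zero_ne_one, if_false] at k0 k1
  refine ⟨fun h => ?_, fun h => ?_⟩
  · have := (neg_le_abs _).trans ((norm_le_pi_norm (u - v) 1).trans h.le)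
    simp only [Pi.sub_apply, o] at this
    linarith
  · have := (le_abs_self _).trans ((norm_le_pi_norm (v - u) 1).trans h.le)
    simp only [Pi.sub_apply, o] at this
    linarith

/-- the two densities agree -/
theorem sep (hG : GFF) {q q' : P4} (H : ∀ h : Sch, tsupport h ⊆ closedBall (bas 1 10) 2 →
    Lc Fc q h = Lc nF q' h) : q = q' := by
  refine sub_eq_zero.1 (hG.sep _ (ball 0 1) (ball (bas 1 10) 1) isOpen_ball
    (nonempty_ball.2 one_pos) isOpen_ball (nonempty_ball.2 one_pos) ?_)
  rintro _ _ ⟨⟨f, rfl⟩, -, hf⟩ ⟨⟨g, rfl⟩, -, hg⟩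
  have s : tsupport (cor f g) ⊆ closedBall (bas 1 10) 2 := closure_minimal (fun v hv =>
    by_contra fun k => hv ((cor_app f g v).trans (integral_eq_zero_of_ae (.of_forall fun y =>
      by_contra fun e => k (by
        have a := hf (subset_tsupport _ (left_ne_zero_of_mul e))
        have b := hg (subset_tsupport _ (right_ne_zero_of_mul e))
        rw [mem_ball, dist_zero_right] at a
        have := dist_triangle v (y + v) (bas 1 10)
        rw [dist_comm v (y + v), dist_eq_norm (y + v) v, add_sub_cancel_right] at this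
        exact this.trans (by linarith [mem_ball.1 b])))))) isClosed_closedBall
  have := (H _ s).trans (loc hG q' _ ((isCompact_closedBall _ _).of_isClosed_subset
    (isClosed_tsupport _) s) fun v hv => mu_lt (far (s hv) (by simp)).1 (far (s hv) (by simp)).2).symm
  rw [← sub_eq_zero, ← ContinuousLinearMap.sub_apply, ← map_sub, Lc_app] at this
  simpa only [ft_cor, neg_neg, mul_assoc] using this

end

end Vale.Agent.P352X.RS.Dva
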