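import Vale.Agent.P352X.R.RES.Red
import Vale.Agent.P352X.R.RES.DvA
import Vale.Agent.P352X.R.FAR
import Vale.Agent.P352X.Api4

/-!
# P352X, block RES: the divergence of the three point distribution in the first slot
-/

set_option linter.all false

open MeasureTheory Filter Topology
open scoped ContDiff SchwartzMap LineDeriv

namespace Vale.Agent.P352X.RS.Dva

open Vale.Agent.P352 Vale.Agent.P352.GF Vale.Agent.P352.H755
open MvPolynomial (X C pderiv)
open UniformSpace (Completion)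
open Api4 SchwartzMap Red

noncomputable section

variable {D : Type*} [NormedAddCommGroup D] [InnerProductSpace ℂ D] (c : Ctx D)

/-- the divergence in the first slot -/
def D3 (n : Ix) (J K : I2) : S3 →L[ℂ] ℂ :=
  ∑ m, c.t (m, n) J K ∘L LineDeriv.lineDerivOpCLM ℂ S3 ((bas m 1, 0, 0) : V × V × V)

theorem D3_app (n : Ix) (J K : I2) (F : S3) :
    D3 c n J K F = ∑ m, c.t (m, n) J K (∂_{((bas m 1, 0, 0) : V × V × V)} F) := by simp [D3]

theorem d_mul {G : S2} {f : Sch} {F : S3} (e : ∀ x y z, F (x, y, z) = G (x, y) * f z) (a x y z : V) :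
    ∂_{((a, 0, 0) : V × V × V)} F (x, y, z) = ∂_{((a, 0) : V × V)} G (x, y) * f z := by
  simp [lineDerivOp_apply, lineDeriv, e]

theorem legs_d (a : V × V) (G : S2) : Far.legs (∂_{a} G : S2) ⊆ Far.legs G :=
  Set.union_subset_union (Set.image_mono (tsupport_lineDerivOp_subset _ _))
    (Set.image_mono (tsupport_lineDerivOp_subset _ _))

/-- the third point is not earlier than the two others -/
theorem facA [Fact c.tp] (n : Ix) (J K : I2) {G : S2} {f : Sch} {F : S3}
    (e : ∀ x y z, F (x, y, z) = G (x, y) * f z) (h : Late (tsupport f) (Far.legs G)) :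
    D3 c n J K F =
      inner ℂ ((c.T K.1 K.2 (bar (ev f)) c.Q.vac : D) : Completion D) (dv1 c.wp n J G) := by
  rw [D3_app, dv1, inner_sum]
  refine Finset.sum_congr rfl fun m _ => ?_
  rw [c.hTP.swap2 _ J K _ (compCLMOfContinuousLinearEquiv ℂ Far.sw2 _) fun _ _ _ => rfl,
    c.hTP.swap1 _ K J _ (ST.tens f (∂_{((bas m 1, 0) : V × V)} G)) fun x y z =>
      (mul_comm _ _).trans (d_mul e _ y z x).symm]
  exact c.hTP.fac1 K _ J f _ _ (fun _ _ _ => rfl) fun x hx y hy => h x hx y (legs_d _ _ hy)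

/-- the third point is not later than the two others -/
theorem facB [Fact c.tp] (n : Ix) (J K : I2) {G G' : S2} {f : Sch} {F : S3}
    (e : ∀ x y z, F (x, y, z) = G (x, y) * f z) (e' : ∀ x, G' x = star (G x))
    (h : Late (Far.legs G) (tsupport f)) : D3 c n J K F =
      inner ℂ (dv1 c.wm n J G') ((c.T K.1 K.2 (ev f) c.Q.vac : D) : Completion D) := by
  rw [D3_app, dv1, sum_inner]
  exact Finset.sum_congr rfl fun m _ => c.hTP.fac3 _ J K _ _ f _ (d_mul e _)
    (fun x => by simp only [lineDerivOp_apply, lineDeriv, e', deriv.star])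
    fun x hx y hy => h x (legs_d _ _ hx) y hy

/-- the components of the source of a divergence -/
def d5 (n : Ix) (J K : I2) (S : P20) : P20 := pderiv (0, n) (dp 1 J (dp 2 K S))

theorem d6_X (I J K : I2) (m : Ix) (S : P20) (z : V × V) : ev8 (d6 I J K (X (0, m) * S)) z =
    (if m = I.1 then ev8 (d5 I.2 J K S) z else 0) + if m = I.2 then ev8 (d5 I.1 J K S) z else 0 := by
  classical
  have k : ∀ j I S, j ≠ 0 → dp j I (X (0, m) * S) = X (0, m) * dp j I S := fun j I S h => by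
    simp [dp, MvPolynomial.pderiv_X, h.symm]
  rw [d6_eq, k 2 _ _ (by decide), k 1 _ _ (by decide), dp, d5, d5]
  generalize dp 1 J (dp 2 K S) = R
  obtain ⟨a, b⟩ := I
  by_cases h1 : m = a <;> by_cases h2 : m = b <;> subst_vars <;>
    simp [MvPolynomial.pderiv_X, Pi.single_apply, ev8_add, ev8_mul, ev8_X, cv, *]

theorem d5_pd (n : Ix) (J K : I2) (i) (S : P20) :
    d5 n J K (pderiv i S) = pderiv i (d5 n J K S) := by
  simp only [d5, dp, pd_comm i]

theorem red_d (ρ : Sch) (φ : S2) (a : V) :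
    red3 ρ (∂_{((a, 0) : V × V)} φ) = ∂_{((a, 0, 0) : V × V × V)} (red3 ρ φ) := by
  ext z
  simp [lineDerivOp_apply, lineDeriv, add_sub_right_comm, Prod.mk_add_mk]

/-- the divergence of the reduced distribution -/
theorem div_eq [Fact c.tp] {ρ0 : V → ℝ} (h : Tst ρ0) {φ : V × V → ℂ} (hφ : Dc φ) (S : P20) :
    Div (Lam c ρ0) φ S = 2 * ∑ n, ∑ J, ∑ K,
      D3 c n J K (red3 (sch (cx ρ0)) (sch fun z => φ z * ev8 (d5 n J K S) z)) := by
  have dm : ∀ {φ : V × V → ℂ} (S : P20), Dc φ → Dc fun z => φ z * ev8 S z :=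
    fun S k => dc_mul k (ev8_smooth S)
  have hd : ∀ {φ : V × V → ℂ} m, Dc φ → Dc (du m φ) := fun m k => dc_fderiv k contDiff_const
  have t : ∀ I J K {ψ}, Dc ψ → tau c ρ0 I J K ψ = c.t I J K (red3 (sch (cx ρ0)) (sch ψ)) :=
    fun I J K ψ k => congrArg _ (sch_red3 (Api4.dc_cx h) k).2
  have k : ∀ I J K, (tau c ρ0 I J K fun z => φ z * ev8 (d6 I J K (d1 S)) z) +
      ∑ m, (tau c ρ0 I J K fun z => du m φ z * ev8 (d6 I J K (X (0, m) * S)) z) =
      c.t I J K (∂_{((bas I.1 1, 0, 0) : V × V × V)}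
        (red3 (sch (cx ρ0)) (sch fun z => φ z * ev8 (d5 I.2 J K S) z))) +
      c.t I.swap J K (∂_{((bas I.2 1, 0, 0) : V × V × V)}
        (red3 (sch (cx ρ0)) (sch fun z => φ z * ev8 (d5 I.1 J K S) z))) := fun I J K => by
    simp only [t _ _ _ (dm _ hφ), t _ _ _ (dm _ (hd _ hφ)), ← c.hTP.ind, ← red_d, ← map_sum,
      ← map_add, ← sch_fderiv (dm _ hφ)]
    rw [← sch_sum _ fun m _ => dm _ (hd m hφ), ← sch_add (dm _ hφ) (dc_sum _ fun m _ =>
      dm _ (hd m hφ)), ← sch_add (dc_fderiv (dm _ hφ) contDiff_const)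
      (dc_fderiv (dm _ hφ) contDiff_const)]
    congr 3 with z
    simp only [d1, d6_eq, dp_sum, ev8_sum]
    simp only [← d6_eq, d6_X, du, mul_der hφ, ev8_du, d5_pd, mul_add, mul_ite, mul_zero,
      Finset.sum_add_distrib, Finset.sum_ite_eq', Finset.mem_univ, if_true]
    ring
  simp only [Div, lam_eq]
  have sw : ∀ {α : Type} [Fintype α] (g : Ix → α → I2 → I2 → ℂ),
      ∑ m, ∑ I, ∑ J, ∑ K, g m I J K = ∑ I, ∑ J, ∑ K, ∑ m, g m I J K := fun g =>
    Finset.sum_comm.trans (Finset.sum_congr rfl fun _ _ => Finset.sum_comm.trans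
      (Finset.sum_congr rfl fun _ _ => Finset.sum_comm))
  rw [sw]
  simp only [← Finset.sum_add_distrib, k]
  simp only [Finset.sum_add_distrib, D3_app, ← sw, two_mul]
  rw [Fintype.sum_prod_type, Fintype.sum_prod_type_right (f := fun I : I2 => ∑ J : I2, ∑ K : I2, _)]
  rfl

end

end Vale.Agent.P352X.RS.Dva
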