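import Vale.Agent.P352X.R.RES.DvB
import Vale.Agent.P352X.R.RES.DvC

/-!
# P352X, row RES.diva: the contact terms at `z1 = z2`
-/

set_option linter.all false

open MeasureTheory Filter Topology Metric
open scoped ContDiff SchwartzMap LineDeriv ComplexConjugate

namespace Vale.Agent.P352X.RS.Dva

open Vale.Agent.P352 Vale.Agent.P352.GF Vale.Agent.P352.BW Vale.Agent.P352.H755
open UniformSpace (Completion)
open Api4 SchwartzMap

noncomputable section

/-- derivatives at the origin -/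
def d0 {k : ℕ} (γ : Fin k → Ix) (m : V → ℂ) : ℂ := iteratedFDeriv ℝ k m 0 fun i => bas (γ i) 1

variable {k : ℕ} (γ : Fin k → Ix)

theorem d0_mul {m : V → ℂ} (h : ContDiff ℝ ∞ m) (a : ℂ) : d0 γ (fun u => a * m u) = a * d0 γ m :=
  congrArg (fun L : V [×k]→L[ℝ] ℂ => L fun i => bas (γ i) 1)
    (iteratedFDeriv_const_smul_apply' (a := a) (h.of_le (ST.le_inf k)).contDiffAt)

theorem d0_star {m : V → ℂ} (h : ContDiff ℝ ∞ m) : d0 γ (fun u => star (m u)) = conj (d0 γ m) :=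
  congrArg (fun L : V [×k]→L[ℝ] ℂ => L fun i => bas (γ i) 1)
    ((Complex.conjCLE : ℂ →L[ℝ] ℂ).iteratedFDeriv_comp_left h.contDiffAt (ST.le_inf k))

theorem dg_ten2 (m g : Sch) : dg γ (ten2 m g) = d0 γ m • g := sch_eq _ fun z => by
  simp only [ten2_apply, add_sub_cancel_left, mul_comm (m _), SchwartzMap.smul_apply, smul_eq_mul,
    mul_comm _ (g z)]
  exact (d0_mul γ (m.smooth ⊤) _).symm

/-- derivatives in `u` at `u = 0` -/
def rs : S2 →L[ℂ] Sch :=
  sl 0 ∘L LineDeriv.iteratedLineDerivOpCLM ℂ S2 fun i => ((bas (γ i) 1, 0) : V × V)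

theorem rs_app (φ : S2) (v : V) : rs γ φ v = d0 γ fun u => φ (u, v) := by
  rw [d0, show (fun u => φ (u, v)) = (fun q => φ ((0, v) + q)) ∘ ContinuousLinearMap.inl ℝ V V from
    funext fun u => by simp, ContinuousLinearMap.iteratedFDeriv_comp_right
      (f := fun q => φ ((0, v) + q)) _ ((φ.smooth ⊤).comp (contDiff_const.add contDiff_id)) _ (ST.le_inf k),
    iteratedFDeriv_comp_add_left]
  exact iteratedLineDerivOp_eq_iteratedFDeriv.trans (by simp)

theorem rs_tens (m h : Sch) : rs γ (ST.tens m h) = d0 γ m • h := SchwartzMap.ext fun v => by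
  simp only [rs_app, ST.tens_apply, mul_comm (m _), SchwartzMap.smul_apply, smul_eq_mul,
    mul_comm _ (h v), d0_mul γ (m.smooth ⊤)]

/-- families of polynomials -/
abbrev Fam := (k : ℕ) → (Fin k → Ix) → P4

/-- the contact terms -/
def RR (k0 : ℕ) (π : Fam) (ν : P4 →ₗ[ℂ] Sch →L[ℂ] ℂ) : S2 →L[ℂ] ℂ :=
  ∑ k ∈ Finset.range (k0 + 1), ∑ γ, (k.factorial : ℂ)⁻¹ • ν (π k γ) ∘L rs γ

def QQ (k0 : ℕ) (π : Fam) (m : V → ℂ) : P4 :=
  ∑ k ∈ Finset.range (k0 + 1), ∑ γ, (k.factorial : ℂ)⁻¹ • d0 γ m • π k γ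

theorem RR_app (k0 : ℕ) (π : Fam) (ν : P4 →ₗ[ℂ] Sch →L[ℂ] ℂ) (φ : S2) : RR k0 π ν φ =
    ∑ k ∈ Finset.range (k0 + 1), ∑ γ, (k.factorial : ℂ)⁻¹ * ν (π k γ) (rs γ φ) := by simp [RR]

theorem RR_tens (k0 : ℕ) (π : Fam) (ν : P4 →ₗ[ℂ] Sch →L[ℂ] ℂ) (m h : Sch) :
    RR k0 π ν (ST.tens m h) = ν (QQ k0 π m) h := by simp [RR_app, QQ, rs_tens]

/-- reduction to products -/
theorem ka (Λ : S3 →L[ℂ] ℂ) (R : S2 →L[ℂ] ℂ) {U : Set (V × V)} (hU : IsOpen U)
    (H : ∀ m g f : Sch, HasCompactSupport m → HasCompactSupport g → HasCompactSupport f →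
      (∀ q ∈ tsupport (ten2 m g), ∀ z ∈ tsupport f, (q.1 - q.2, z - q.2) ∈ U) →
      Λ (ten3 m (ST.tens g f)) = R (ST.tens m (cor g f))) {ρ : Sch} (h1 : ∫ y, ρ y = 1) (φ : S2)
    (hφ : tsupport φ ⊆ U) : Λ (red3 ρ φ) = R φ := by
  have := ST.ker3 ((Λ - R ∘L fib3 volume) ∘L compCLMOfContinuousLinearEquiv ℂ (sh3 V V))
    (U := (fun z => (z.1, z.2.2 - z.2.1)) ⁻¹' U) (hU.preimage (by fun_prop))
    (fun m g f hm hg hf hs => sub_eq_zero.2 ((H m g f hm hg hf fun q hq z hz =>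
      hs (a := (q.1 - q.2, q.2, z)) ⟨(tsupport_tenE _ _ _ hq).1, (tsupport_tenE _ _ _ hq).2, hz⟩).trans
      (congrArg R (SchwartzMap.ext fun v => by
        simp [cor_app, integral_const_mul]))))
    (compCLMOfContinuousLinearEquiv ℂ (sh3 V V).symm (red3 ρ φ))
    ((closure_minimal (t := (fun z => (z.1, z.2.2 - z.2.1)) ⁻¹' tsupport φ)
      (fun z (hz : ρ _ * φ _ ≠ 0) => subset_tsupport φ (by simpa using right_ne_zero_of_mul hz))
      ((isClosed_tsupport φ).preimage (by fun_prop))).trans (Set.preimage_mono hφ))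
  rw [ContinuousLinearMap.comp_apply, show compCLMOfContinuousLinearEquiv ℂ (sh3 V V) _ = red3 ρ φ
    from SchwartzMap.ext fun z => congrArg (red3 ρ φ) ((sh3 V V).symm_apply_apply z)] at this
  refine (sub_eq_zero.1 this).trans (congrArg R (SchwartzMap.ext fun v => ?_))
  simp [integral_mul_const, h1]

variable {D : Type*} [NormedAddCommGroup D] [InnerProductSpace ℂ D] {c : Ctx D}

/-- the overlaps of the contact terms with `T` -/
structure Ovl (c : Ctx D) (w : I2 → I2 → S2 →L[ℂ] Completion D) (k0 : ℕ)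
    (π : Ix → I2 → Ix → Ix → Fam) : Prop where
  ov : ∀ n J k γ, Ov (5 - k) fun r s => π n J r s k γ
  zero : ∀ n J r s k γ, 5 < k → π n J r s k γ = 0
  eq : ∀ n J r s (m g f : Sch), HasCompactSupport m → HasCompactSupport g →
    inner ℂ ((c.T r s (ev f) c.Q.vac : D) : Completion D) (dv1 w n J (ten2 m g)) =
      ∑ k ∈ Finset.range (k0 + 1), ∑ γ, (k.factorial : ℂ)⁻¹ * (d0 γ m *
        ∫ p in Fc, evp (π n J r s k γ) p * (conj (ft (ev f) p) * ft (ev g) p))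

theorem ex_ovl (t : T3 c) {e : Bool} {w : I2 → I2 → S2 →L[ℂ] Completion D}
    (hw : TP2 c.Q c.T e w) : ∃ k0 π, Ovl c w k0 π := by
  obtain ⟨k0, O, h1, -, h3⟩ := t.struct e w hw
  choose π p1 p2 p3 p4 p5 p6 using fun k : ℕ => t.poly (k + 3) (5 - k) (O k)
    (by exact_mod_cast h1 k) ⟨1 - k, by push_cast; ring⟩
  refine ⟨k0, fun n J r s k γ => π k r s (ix3 n J γ), fun n J k γ => ⟨fun r s => ?_,
    fun r s => p3 k r s _, fun s => p4 k s _, fun r s l => p5 k r s l _⟩,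
    fun n J r s k γ hk => (p2 k r s _).2 (by omega), fun n J r s m g f hm hg => ?_⟩
  · exact (show (5 - k : ℤ).toNat = 5 - k by omega) ▸ (p2 k r s _).1
  · rw [h3 n J (ten2 m g) (dc_tenE (sh2 V) (dc_of_sch m hm) (dc_of_sch g hg)).2]
    simp only [inner_sum, inner_smul_right, dg_ten2, map_smul, p1]

variable {k0 k1 : ℕ} {π π' : Ix → I2 → Ix → Ix → Fam} {ρ : Sch}

theorem thmA [Fact c.tp] (h : Ovl c c.wp k0 π) (h1 : ∫ y, ρ y = 1) (n : Ix) (J K : I2) (φ : S2)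
    (hφ : tsupport φ ⊆ {z | ¬ Cl (z.1 - z.2) ∧ ¬ Cl (0 - z.2)}) :
    D3 c n J K (red3 ρ φ) = RR k0 (π n J K.1 K.2) (Lc Fc) φ := by
  refine ka _ _ ((closed_Cl.isOpen_compl.preimage (f := fun z : V × V => z.1 - z.2)
    (by fun_prop)).inter (closed_Cl.isOpen_compl.preimage (f := fun z : V × V => 0 - z.2)
    (by fun_prop))) (fun m g f hm hg hf hs => ?_) h1 φ hφ
  have e : bar (ev f) = ev (sch fun z => star (f z)) := (coe_sch (dc_star (dc_of_sch f hf))).symm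
  rw [facA c n J K (fun x y z => ten3_tens m g f (x, y, z)) ?_, e, h.eq _ _ _ _ _ _ _ hm hg, ← e]
  · simp only [RR_app, rs_tens, map_smul, Lc_app, ft_cor, ft_bar, neg_neg, Complex.conj_conj,
      smul_eq_mul, mul_comm (ft (ev f) _)]
  · rintro x hx _ (⟨q, hq, rfl⟩ | ⟨q, hq, rfl⟩)
    · simpa [Cl] using (hs q hq x hx).1
    · simpa [Cl] using (hs q hq x hx).2

theorem ex_cj (q : P4) : ∃ q', ∀ p, evp q' (-p) = conj (evp q p) := by
  induction q using MvPolynomial.induction_on with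
  | C a => exact ⟨.C (conj a), fun p => by simp [evp_C]⟩
  | add p q hp hq =>
    exact hp.elim fun p' hp => hq.elim fun q' hq => ⟨p' + q', fun _ => by simp [evp_add, hp, hq]⟩
  | mul_X p i hp =>
    exact hp.elim fun p' hp => ⟨.C (-1) * p' * .X i, fun _ => by
      simp only [evp_mul, evp_X, evp_C, hp]
      simp⟩

theorem thmB [Fact c.tp] (h : Ovl c c.wm k1 π') (h1 : ∫ y, ρ y = 1) (n : Ix) (J K : I2) : ∃ π'', ∀ φ : S2,
    tsupport φ ⊆ {z | ¬ Cl (z.2 - z.1) ∧ ¬ Cl (z.2 - 0)} →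
      D3 c n J K (red3 ρ φ) = RR k1 π'' (Lc nF) φ := by
  choose cj hj using ex_cj
  refine ⟨fun k γ => cj (π' n J K.1 K.2 k γ), ka _ _ ((closed_Cl.isOpen_compl.preimage
    (f := fun z : V × V => z.2 - z.1) (by fun_prop)).inter (closed_Cl.isOpen_compl.preimage
    (f := fun z : V × V => z.2 - 0) (by fun_prop))) (fun m g f hm hg hf hs => ?_) h1⟩
  have em := coe_sch (dc_star (dc_of_sch m hm))
  have eg := coe_sch (dc_star (dc_of_sch g hg))
  rw [facB c n J K (G' := ten2 (sch fun z => star (m z)) (sch fun z => star (g z)))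
    (fun x y z => ten3_tens m g f (x, y, z)) (fun x => by simp only [ten2_apply, em, eg, star_mul']) ?_,
    ← inner_conj_symm, h.eq _ _ _ _ _ _ _ (em.symm ▸ (dc_star (dc_of_sch m hm)).2)
      (eg.symm ▸ (dc_star (dc_of_sch g hg)).2),
    show ev (sch fun z => star (g z)) = bar (ev g) from eg, em]
  · simp only [RR_app, rs_tens, map_smul, Lc_nF, ft_cor, ft_bar, smul_eq_mul, map_sum, map_mul,
      map_inv₀, map_natCast, d0_star _ (m.smooth ⊤), Complex.conj_conj, ← integral_conj, hj,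
      mul_comm (ft (ev f) _)]
  · rintro _ (⟨q, hq, rfl⟩ | ⟨q, hq, rfl⟩) x hx
    · simpa [Cl] using (hs q hq x hx).1
    · simpa [Cl] using (hs q hq x hx).2

/-- the divergence near `u = 0` -/
theorem glue [Fact c.tp] (t : T3 c) (h : Ovl c c.wp k0 π) (h1 : ∫ y, ρ y = 1) {O : Set V} (hO : IsOpen O)
    {ε : ℝ} (hε : ε ≤ 1) {a : V → ℂ} (ha : Cf O ε a) (n : Ix) (J K : I2) (φ : S2)
    (hc : HasCompactSupport φ) (hφ : tsupport φ ⊆ ball 0 ε ×ˢ O) :
    D3 c n J K (red3 ρ φ) = RR k0 (π n J K.1 K.2) (Mu a) φ := by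
  obtain ⟨k1, π', h'⟩ := ex_ovl t c.hTP.tm
  obtain ⟨π'', hB⟩ := thmB h' h1 n J K
  refine sub_eq_zero.1 (t.ker V V (D3 c n J K ∘L red3 ρ - RR k0 (π n J K.1 K.2) (Mu a)) _ _
    isOpen_ball hO (fun m f G _ hm _ hf e => sub_eq_zero.2 ?_) φ hc hφ)
  have z0 : ‖(0 : V)‖ < ε := by simpa using ha.pos
  have A : ∀ g : Sch, (∀ v ∈ tsupport g, ∀ u, ‖u‖ < ε → ¬ Cl (u - v)) →
      D3 c n J K (red3 ρ (ST.tens m g)) = Lc Fc (QQ k0 (π n J K.1 K.2) m) g := fun g hg => by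
    rw [thmA h h1 n J K _ fun z hz => ?_, RR_tens]
    have := ST.tsupport_tens _ _ hz
    exact ⟨hg _ this.2 _ (by simpa using hm this.1), hg _ this.2 _ z0⟩
  have B : ∀ g : Sch, (∀ v ∈ tsupport g, ∀ u, ‖u‖ < ε → ¬ Cl (v - u)) →
      D3 c n J K (red3 ρ (ST.tens m g)) = Lc nF (QQ k1 π'' m) g := fun g hg => by
    rw [hB _ fun z hz => ?_, RR_tens]
    have := ST.tsupport_tens _ _ hz
    exact ⟨hg _ this.2 _ (by simpa using hm this.1), hg _ this.2 _ z0⟩
  have s := sep t.gff fun g hg => (A g fun v hv u hu => (far (hg hv) (hu.trans_le hε)).1).symm.trans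
    (B g fun v hv u hu => (far (hg hv) (hu.trans_le hε)).2)
  have e1 := smulLeftCLM_apply ha.tg f
  change D3 c n J K (red3 ρ G) = RR k0 (π n J K.1 K.2) (Mu a) G
  rw [show G = ST.tens m f from SchwartzMap.ext fun z => e z.1 z.2, RR_tens, Mu_app,
    ← add_sub_cancel (smulLeftCLM ℂ a f) f, ← ST.tensR_apply, map_add,
    map_add, map_add, ST.tensR_apply, ST.tensR_apply, A _ fun v hv => ?_, B _ fun v hv => ?_, ← s,
    map_sub]
  · simp only [add_sub_cancel]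
    ring
  · rw [show ((f - smulLeftCLM ℂ a f : Sch) : V → ℂ) = fun x => (1 - a) x * f x from
      funext fun x => by simp [e1, sub_mul]] at hv
    exact ha.B v (hf (tsupport_mul_subset_right hv)) (tsupport_mul_subset_left hv)
  · rw [e1] at hv
    exact ha.A v (hf (tsupport_smul_subset_right _ _ hv)) (tsupport_smul_subset_left _ _ hv)

end

end Vale.Agent.P352X.RS.Dva
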