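import Vale.Agent.P352X.R.RES.Spec
import Vale.Agent.P352X.Api4

/-!
# P352X, block RES: row `fib`
-/

set_option linter.all false

open MeasureTheory Filter Topology
open scoped SchwartzMap ContDiff

namespace Vale.Agent.P352X.RS

open Vale.Agent.P352 Vale.Agent.P352.GF Vale.Agent.P352X.Api4

noncomputable section

namespace Fib

section abstract

variable {Y E B : Type*} [NormedAddCommGroup Y] [NormedSpace ℝ Y] [FiniteDimensional ℝ Y]
  [MeasurableSpace Y] [BorelSpace Y] [NormedAddCommGroup E] [NormedSpace ℝ E]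
  [FiniteDimensional ℝ E] [NormedAddCommGroup B] [NormedSpace ℂ B] [CompleteSpace B]
  (μ : Measure Y) [μ.IsAddHaarMeasure]

/-- translation invariant distributions are constant -/
theorem inv1 (Λ : 𝓢(Y, ℂ) →L[ℂ] B) (h : ∀ a f, Λ (ST.tsl a f) = Λ f) (f g : 𝓢(Y, ℂ)) :
    (∫ y, g y ∂μ) • Λ f = (∫ y, f y ∂μ) • Λ g := by
  have k : ∀ f g : 𝓢(Y, ℂ), Λ (ST.cnv μ f g) = (∫ y, f y ∂μ) • Λ g := fun f g => by
    rw [(ST.clm_cnv Λ f g).2]
    simp only [h]
    exact integral_smul_const _ _
  rw [← k, ← k, ST.cnv_comm]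

/-- distributions which are invariant under the translations of the first variable -/
theorem inv2 [SecondCountableTopology Y] (Λ : 𝓢(Y × E, ℂ) →L[ℂ] B)
    (h : ∀ (a : Y) F, Λ (ST.tsl ((a, 0) : Y × E) F) = Λ F) {ρ : 𝓢(Y, ℂ)} (h1 : ∫ y, ρ y ∂μ = 1)
    (F : 𝓢(Y × E, ℂ)) : Λ F = Λ (ST.tens ρ (pint μ F)) := by
  have k : Λ = Λ ∘L ST.tensR ρ ∘L pint μ := ST.ext2 fun f g _ _ => by
    have e : pint μ (ST.tens f g) = (∫ y, f y ∂μ) • g := SchwartzMap.ext fun z => by
      simp only [pint_apply, ST.tens_apply, SchwartzMap.smul_apply, smul_eq_mul]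
      exact integral_mul_const _ _
    have := inv1 μ (Λ ∘L ST.tensL g) (fun a f => by
      have := h a (ST.tens f g)
      rwa [ST.tsl_tens, show ST.tsl ((a, 0) : Y × E).2 g = g from
        SchwartzMap.ext fun z => congrArg g (sub_zero z)] at this) f ρ
    rw [h1, one_smul] at this
    simp only [ContinuousLinearMap.comp_apply, e, map_smul]
    exact this
  exact congrArg (fun L : 𝓢(Y × E, ℂ) →L[ℂ] B => L F) k

end abstract

theorem l2_one (K I : I2) : L2 GF.one K I = if K = I then 1 else 0 := by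
  obtain ⟨a, b⟩ := K
  obtain ⟨a', b'⟩ := I
  by_cases h : a = a' <;> by_cases h' : b = b' <;> simp [L2, GF.one, bas, h, h', eq_comm]

theorem lor_one : IsLor GF.one := by
  refine ⟨fun m n => ?_, by simp [GF.one, bas, o], ?_⟩
  · unfold GF.one GF.mdot bas eta o
    fin_cases m <;> fin_cases n <;> simp [Fin.sum_univ_four]
  · rw [show (GF.one : Ix → V) = (1 : Matrix Ix Ix ℝ) from funext fun m => funext fun n => by
      simp [GF.one, bas, Matrix.one_apply, eq_comm]]
    exact Matrix.det_one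

theorem sim_tr (a x : V) : sim 1 GF.one a x = x + a := by
  funext k
  simp [sim, GF.one, bas, add_comm]

variable {D : Type*} [NormedAddCommGroup D] [InnerProductSpace ℂ D] (c : Ctx D)

/-- translation invariance -/
theorem t_tsl [Fact c.tp] (I J K : I2) (a : V) (F G : S3) (h : ∀ x y z, G (x, y, z) = F (x + a, y + a, z + a)) :
    c.t I J K F = c.t I J K G := by
  rw [c.hTP.cov 1 GF.one a I J K F G one_pos lor_one (by simpa only [sim_tr] using h) (.inl rfl)]
  simp [l2_one]

/-- fibre integration on Schwartz space -/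
theorem t_fib [Fact c.tp] (I J K : I2) {ρ : Sch} (h1 : ∫ y, ρ y = 1) (F : S3) :
    c.t I J K F = c.t I J K (red3 ρ (fib3 volume F)) := by
  have := inv2 volume (c.t I J K ∘L SchwartzMap.compCLMOfContinuousLinearEquiv ℂ (rd3 V))
    (fun a H => t_tsl c I J K a _ _ fun x y z => by simp [ST.tsl_apply]) h1
    (SchwartzMap.compCLMOfContinuousLinearEquiv ℂ (rd3 V).symm F)
  refine Eq.trans (congrArg _ (SchwartzMap.ext fun z => ?_)) this
  exact congrArg F ((rd3 V).symm_apply_apply z).symm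

end Fib

variable {D : Type*} [NormedAddCommGroup D] [InnerProductSpace ℂ D] (c : Ctx D)

theorem fib0 [Fact c.tp] : FIB c := fun ρ0 I J K F h0 h1 hF => by
  obtain ⟨k1, k2⟩ := sch_fib3 volume hF
  refine ⟨k1, ?_⟩
  rw [Fib.t_fib c I J K (ρ := sch (cx ρ0)) (by
    rw [coe_sch (dc_cx h0)]
    exact (integral_complex_ofReal (f := ρ0)).trans (by rw [h1]; rfl)) (sch F), ← k2,
    ← (sch_red3 (dc_cx h0) k1).2]
  rfl

theorem fib_row [Fact c.tp] : T3 c → FIB c := fun _ => fib0 c

end

end Vale.Agent.P352X.RS
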