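import Vale.Agent.P352X.R.RES.RedB

/-!
# P352X, block RES: row `red`
-/

set_option linter.all false

open MeasureTheory Filter Topology
open scoped SchwartzMap ContDiff

namespace Vale.Agent.P352X.RS

open Vale.Agent.P352 Vale.Agent.P352.GF Vale.Agent.P352.H755
open MvPolynomial (C)

noncomputable section

namespace Red

/-- the differences `(z1 - z2, z3 - z2)` -/
def dq : V × V × V →L[ℝ] V × V :=
  (ContinuousLinearMap.fst ℝ V (V × V) - .fst ℝ V V ∘L .snd ℝ V (V × V)).prod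
    (.snd ℝ V V ∘L .snd ℝ V (V × V) - .fst ℝ V V ∘L .snd ℝ V (V × V))

theorem dq_app (z : V × V × V) : dq z = (z.1 - z.2.1, z.2.2 - z.2.1) := rfl

variable {g : V → ℂ} {φ ψ : V × V → ℂ} {ρ0 : V → ℝ}

theorem dc_ten (hg : Dc g) (hψ : Dc ψ) (A : V × V × V →L[ℝ] V)
    (hA : ∀ z, A z = 0 → dq z = 0 → z = 0) : Dc fun z => g (A z) * ψ (dq z) :=
  dc_inj (dc_prod hg hψ) (A.prod dq) fun z hz => hA z (congrArg Prod.fst hz) (congrArg Prod.snd hz)

/-- `g(z2) ψ(z1 - z2, z3 - z2)` -/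
def lf (g : V → ℂ) (ψ : V × V → ℂ) (z : V × V × V) : ℂ := g z.2.1 * ψ (dq z)

theorem dc_lf (hg : Dc g) (hψ : Dc ψ) : Dc (lf g ψ) :=
  dc_ten hg hψ (.fst ℝ V V ∘L .snd ℝ V (V × V)) fun ⟨x, y, z⟩ h1 h2 => by
    obtain rfl : y = 0 := h1
    simpa [dq_app] using h2

theorem dc_lf1 (hg : Dc g) (hψ : Dc ψ) : Dc fun z : V × V × V => g z.1 * ψ (dq z) :=
  dc_ten hg hψ (.fst ℝ V (V × V)) fun ⟨x, y, z⟩ h1 h2 => by
    obtain rfl : x = 0 := h1
    obtain ⟨k1, k2⟩ := Prod.mk_eq_zero.1 h2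
    obtain rfl : y = 0 := by simpa using k1
    simpa using k2

theorem dc_cx (h : Tst ρ0) : Dc (cx ρ0) :=
  ⟨Complex.ofRealCLM.contDiff.comp h.1, h.2.comp_left (g := Complex.ofReal) rfl⟩

theorem lf_der (hg : Dc g) (hψ : Dc ψ) (A : V →L[ℝ] V) (z : V × V × V) :
    fderiv ℝ (lf g ψ) z (tri A z) = lf g (fun y => fderiv ℝ ψ y (A.prodMap A y)) z +
      1 * lf (fun y => fderiv ℝ g y (A y)) ψ z := by
  have h := ((hg.1.differentiable (by simp) z.2.1).hasFDerivAt.comp z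
    (ContinuousLinearMap.fst ℝ V V ∘L .snd ℝ V (V × V)).hasFDerivAt).fun_mul
    ((hψ.1.differentiable (by simp) (dq z)).hasFDerivAt.comp z dq.hasFDerivAt)
  refine (congrArg (· (tri A z)) h.fderiv).trans ?_
  change g z.2.1 * fderiv ℝ ψ (dq z) (dq (tri A z)) + ψ (dq z) * fderiv ℝ g z.2.1 (A z.2.1) = _
  rw [show dq (tri A z) = A.prodMap A (dq z) from
    Prod.ext (map_sub A _ _).symm (map_sub A _ _).symm, one_mul, mul_comm (ψ _)]
  rfl

variable {D : Type*} [NormedAddCommGroup D] [InnerProductSpace ℂ D] (c : Ctx D) {I J K : I2}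

/-- the reduced distribution, components -/
def tau (ρ0 : V → ℝ) (I J K : I2) (ψ : V × V → ℂ) : ℂ := c.t I J K (sch (lf (cx ρ0) ψ))

theorem lam_eq (S : P20) : Lam c ρ0 φ S =
    ∑ I, ∑ J, ∑ K, tau c ρ0 I J K fun z => φ z * ev8 (d6 I J K S) z := rfl

theorem tau_lin (h : Tst ρ0) (hφ : Dc φ) (hψ : Dc ψ) (a : ℂ) :
    tau c ρ0 I J K (fun z => φ z + a * ψ z) = tau c ρ0 I J K φ + a * tau c ρ0 I J K ψ := by
  rw [tau, tau, tau, ← smul_eq_mul, ← map_smul, ← map_add,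
    ← sch_lin (dc_lf (dc_cx h) hφ) (dc_lf (dc_cx h) hψ)]
  exact congrArg (fun F => c.t I J K (sch F)) (funext fun z => by simp only [lf]; ring)

theorem dc_zero : Dc fun _ : V × V => (0 : ℂ) := ⟨contDiff_const, HasCompactSupport.zero⟩

theorem tau_zero (h : Tst ρ0) : tau c ρ0 I J K (fun _ => 0) = 0 := by
  simpa using tau_lin c (I := I) (J := J) (K := K) h dc_zero dc_zero (-1)

theorem tau_smul (h : Tst ρ0) (hψ : Dc ψ) (a : ℂ) :
    tau c ρ0 I J K (fun z => a * ψ z) = a * tau c ρ0 I J K ψ := by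
  simpa [tau_zero c h] using tau_lin c (I := I) (J := J) (K := K) h dc_zero hψ a

theorem tau_add (h : Tst ρ0) (hφ : Dc φ) (S S' : P20) :
    tau c ρ0 I J K (fun z => φ z * ev8 (S + S') z) =
      tau c ρ0 I J K (fun z => φ z * ev8 S z) + tau c ρ0 I J K fun z => φ z * ev8 S' z := by
  simpa only [one_mul, ← mul_add, ← ev8_add] using tau_lin c (I := I) (J := J) (K := K) h
    (dc_mul hφ (ev8_smooth S)) (dc_mul hφ (ev8_smooth S')) 1

theorem tau_C (h : Tst ρ0) (hφ : Dc φ) (a : ℂ) (S : P20) :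
    tau c ρ0 I J K (fun z => φ z * ev8 (C a * S) z) =
      a * tau c ρ0 I J K fun z => φ z * ev8 S z := by
  simpa only [ev8_mul, ev8_C, mul_left_comm] using tau_smul c (I := I) (J := J) (K := K) h
    (dc_mul hφ (ev8_smooth S)) a

theorem tau_sum {ι : Type} (t : Finset ι) (h : Tst ρ0) (hφ : Dc φ) (S : ι → P20) :
    tau c ρ0 I J K (fun z => φ z * ev8 (∑ i ∈ t, S i) z) =
      ∑ i ∈ t, tau c ρ0 I J K fun z => φ z * ev8 (S i) z := by
  classical
  induction t using Finset.induction_on with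
  | empty => simpa [ev8] using tau_zero c h
  | insert i t hi ih => rw [Finset.sum_insert hi, Finset.sum_insert hi, tau_add c h hφ, ih]

variable {c}

theorem fib2 (hF : FIB c) (h : Tst ρ0) (h1 : ∫ x, ρ0 x = 1) (hg : Dc g) (hψ : Dc ψ) :
    c.t I J K (sch (lf g ψ)) = (∫ y, g y) * tau c ρ0 I J K ψ := by
  rw [(hF ρ0 I J K _ h h1 (dc_lf hg hψ)).2, ← tau_smul c h hψ]
  exact congrArg (fun F => c.t I J K (sch F)) (funext fun z => by
    simp only [lf, dq_app, add_sub_cancel_left, integral_mul_const, cx])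

theorem fib1 (hF : FIB c) (h : Tst ρ0) (h1 : ∫ x, ρ0 x = 1) (hψ : Dc ψ) :
    c.t I J K (sch fun z : V × V × V => cx ρ0 z.1 * ψ (dq z)) = tau c ρ0 I J K ψ := by
  rw [(hF ρ0 I J K _ h h1 (dc_lf1 (dc_cx h) hψ)).2]
  refine congrArg (fun F => c.t I J K (sch F)) (funext fun z => ?_)
  simp only [lf, dq_app, add_sub_cancel_left, integral_mul_const]
  rw [integral_add_right_eq_self (cx ρ0), show ∫ y, cx ρ0 y = 1 by
    rw [← Complex.ofReal_one, ← h1]; exact integral_ofReal, one_mul]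
  rfl

theorem tau_inf [Fact c.tp] (hF : FIB c) (h : Tst ρ0) (h1 : ∫ x, ρ0 x = 1) {s : ℝ → ℝ} {L : ℝ → Ix → V}
    {s' : ℝ} {w : Ix → V} (hs : HasDerivAt s s' 0) (hL : HasDerivAt L w 0) (s0 : s 0 = 1)
    (L0 : L 0 = GF.one) (hI : ∀ᶠ t in 𝓝 (0 : ℝ), IsLor (L t)) (hw : ∀ n, w n n = 0) (hψ : Dc ψ)
    (h0 : (∀ t, s t = 1) ∨ (0 : V × V) ∉ tsupport ψ) (I J K : I2) :
    tau c ρ0 I J K (fun y => fderiv ℝ ψ y ((s' • 1 + mat w).prodMap (s' • 1 + mat w) y)) +
      (∑ M, l2 w M I * tau c ρ0 M J K ψ + ∑ M, l2 w M J * tau c ρ0 I M K ψ +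
        ∑ M, l2 w M K * tau c ρ0 I J M ψ) = 4 * s' * tau c ρ0 I J K ψ := by
  have k := inf c hs hL s0 L0 hI (dc_lf (dc_cx h) hψ) (h0.imp id fun k x => by
    rw [notMem_tsupport_iff_eventuallyEq] at k ⊢
    exact ((dq.continuous.tendsto' (x, x, x) 0 (by simp [dq_app])).eventually k).mono
      fun z e => by simp only [lf, e, Pi.zero_apply, mul_zero]) I J K
  rw [funext (lf_der (dc_cx h) hψ _), sch_lin (dc_lf (dc_cx h) (dc_der hψ _))
    (dc_lf (dc_der (dc_cx h) _) hψ), one_smul, map_add, fib2 hF h h1 (dc_der (dc_cx h) _) hψ,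
    int_der (dc_cx h), show ∫ y, cx ρ0 y = 1 by
      rw [← Complex.ofReal_one, ← h1]; exact integral_ofReal] at k
  have e : ∑ n, (((s' • 1 + mat w : V →L[ℝ] V) (bas n 1) n : ℝ) : ℂ) = 4 * s' := by
    simp [mat_bas, hw, bas]
  rw [e] at k
  simp only [tau] at k ⊢
  linear_combination k

theorem mul_der (hφ : Dc φ) (S : P20) (z y : V × V) : fderiv ℝ (fun z => φ z * ev8 S z) z y =
    fderiv ℝ φ z y * ev8 S z + 1 * (φ z * fderiv ℝ (ev8 S) z y) := by
  rw [fderiv_fun_mul (hφ.1.differentiable (by simp) z) (ev8_diff S z)]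
  simp only [ContinuousLinearMap.add_apply, ContinuousLinearMap.smul_apply, smul_eq_mul]
  ring

theorem sw3 {α β : Type} [Fintype α] [Fintype β] (f : α → α → β → ℂ) :
    ∑ J, ∑ K, ∑ M, f J M K = ∑ J, ∑ K, ∑ M, f M J K :=
  (Finset.sum_congr rfl fun _ _ => Finset.sum_comm).trans
    (Finset.sum_comm.trans (Finset.sum_congr rfl fun _ _ => Finset.sum_comm))

theorem sw4 {α : Type} [Fintype α] (f : α → α → α → α → ℂ) :
    ∑ I, ∑ J, ∑ K, ∑ M, f I M J K = ∑ I, ∑ J, ∑ K, ∑ M, f M I J K := by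
  simpa only [Fintype.sum_prod_type] using sw3 fun I M (k : α × α) => f I M k.1 k.2

theorem tau12 [Fact c.tp] (hF : FIB c) (h : Tst ρ0) (h1 : ∫ x, ρ0 x = 1) (hψ : Dc ψ) :
    tau c ρ0 I J K (fun z => ψ (-z.1, z.2 - z.1)) = tau c ρ0 J I K ψ := by
  have k := dc_inj hψ ((-ContinuousLinearMap.fst ℝ V V).prod (.snd ℝ V V - .fst ℝ V V))
    fun ⟨x, y⟩ e => by
      obtain ⟨k1, k2⟩ := Prod.mk_eq_zero.1 e
      obtain rfl : x = 0 := by simpa using k1
      simpa using k2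
  rw [← fib1 hF h h1 hψ]
  refine c.hTP.swap1 I J K _ _ fun x y z => ?_
  rw [sch_app (dc_lf1 (dc_cx h) hψ)]
  refine Eq.trans ?_ (sch_app (dc_lf (dc_cx h) k) _).symm
  simp [lf, dq_app]

theorem tau13 [Fact c.tp] (h : Tst ρ0) (hψ : Dc ψ) :
    tau c ρ0 I J K (fun z => ψ (z.2, z.1)) = tau c ρ0 K J I ψ := by
  have k := dc_lf (dc_cx h) (dc_inj hψ ((ContinuousLinearMap.snd ℝ V V).prod (.fst ℝ V V))
    fun ⟨x, y⟩ e => Prod.mk_eq_zero.2 (Prod.mk_eq_zero.1 e).symm)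
  let e1 : (V × V × V) ≃L[ℝ] V × V × V := (ContinuousLinearEquiv.prodAssoc ℝ V V V).symm.trans
    (((ContinuousLinearEquiv.prodComm ℝ V V).prodCongr (.refl ℝ V)).trans (.prodAssoc ℝ V V V))
  let e2 : (V × V × V) ≃L[ℝ] V × V × V :=
    (ContinuousLinearEquiv.refl ℝ V).prodCongr (.prodComm ℝ V V)
  let F : S3 := sch (lf (cx ρ0) fun z => ψ (z.2, z.1))
  let F1 := SchwartzMap.compCLMOfContinuousLinearEquiv ℂ e1 F
  let F2 := SchwartzMap.compCLMOfContinuousLinearEquiv ℂ e2 F1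
  refine (c.hTP.swap1 I J K F F1 fun _ _ _ => rfl).trans ((c.hTP.swap2 J I K F1 F2
    fun _ _ _ => rfl).trans (c.hTP.swap1 J K I F2 _ fun x y z => ?_))
  rw [sch_app (dc_lf (dc_cx h) hψ)]
  exact (sch_app k (z, y, x)).symm

end Red

open Red in
/-- row RES.red -/
theorem red_row {D : Type*} [NormedAddCommGroup D] [InnerProductSpace ℂ D] (c : Ctx D) [Fact c.tp] :
    T3 c → FIB c → ∀ ρ0, Tst ρ0 → ∫ x, ρ0 x = 1 → RD0 (Lam c ρ0) := by
  intro _ hF ρ0 h h1
  have dm : ∀ {φ : V × V → ℂ} (S : P20), Dc φ → Dc fun z => φ z * ev8 S z :=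
    fun S k => dc_mul k (ev8_smooth S)
  refine ⟨fun φ ψ a S hφ hψ => ?_, fun φ a S S' hφ => ?_, fun φ n S hφ h0 hS => ?_,
    fun w φ S hw hφ => ?_, fun φ S hφ => ?_, fun φ S hφ => ?_⟩
  · simp only [lam_eq, add_mul, mul_assoc, tau_lin c h (dm _ hφ) (dm _ hψ), Finset.sum_add_distrib,
      Finset.mul_sum]
  · simp only [lam_eq, d6_lin, tau_add c h hφ, tau_C c h hφ, Finset.sum_add_distrib, Finset.mul_sum]
  · simp only [lam_eq, Finset.mul_sum]
    refine Finset.sum_congr rfl fun I _ => Finset.sum_congr rfl fun J _ =>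
      Finset.sum_congr rfl fun K _ => ?_
    have k := tau_inf hF h h1 (s := fun t => 1 + t) (L := fun _ => GF.one)
      ((hasDerivAt_id' 0).const_add 1) (hasDerivAt_const _ _) (add_zero _) rfl
      (by
        obtain ⟨L, -, l1, l2⟩ := ex_flow (w := 0) fun _ _ => by simp
        exact .of_forall fun _ => l1 ▸ l2.self_of_nhds)
      (fun _ => rfl) (dm (d6 I J K S) hφ) (.inr fun k => h0 (tsupport_mul_subset_left k)) I J K
    have e : ∀ z, fderiv ℝ (fun z => φ z * ev8 (d6 I J K S) z) z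
        ((((1 : ℝ) • 1 + mat 0 : V →L[ℝ] V).prodMap ((1 : ℝ) • 1 + mat 0)) z) =
        Ef φ z * ev8 (d6 I J K S) z + n * (φ z * ev8 (d6 I J K S) z) := fun z => by
      rw [show (((1 : ℝ) • 1 + mat 0 : V →L[ℝ] V).prodMap ((1 : ℝ) • 1 + mat 0)) z = z by simp,
        mul_der hφ, one_mul, ← Ef, ← Ef, ev8_E (d6_deg hS I J K), mul_left_comm]
    rw [funext e, tau_lin c h (dm _ (show Dc (Ef φ) from dc_der hφ 1)) (dm _ hφ)] at k
    simp only [l2, Pi.zero_apply, zero_mul, mul_zero, add_zero, Complex.ofReal_zero,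
      Finset.sum_const_zero, Complex.ofReal_one] at k
    linear_combination k
  · obtain ⟨L, l0, l1, l2⟩ := ex_flow hw
    have k := fun I J K I' J' K' => tau_inf hF h h1 (s := fun _ => 1) (hasDerivAt_const _ _) l0 rfl
      l1 l2 (fun n => by
        have := hw n n
        have e : eta n ≠ 0 := by unfold eta; split_ifs <;> norm_num
        exact (mul_eq_zero.1 (by linarith)).resolve_left e) (dm (d6 I' J' K' S) hφ)
      (.inl fun _ => rfl) I J K
    have e0 : ∀ z : V × V, (((0 : ℝ) • 1 + mat w : V →L[ℝ] V).prodMap ((0 : ℝ) • 1 + mat w)) z =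
        (sim 1 w 0 z.1, sim 1 w 0 z.2) := fun z => by simp [sim_mat, Prod.map]
    have hX : Dc (Xf w φ) := by
      have := dc_der hφ (((0 : ℝ) • 1 + mat w).prodMap ((0 : ℝ) • 1 + mat w))
      simp only [e0] at this
      exact this
    have e : ∀ (R : P20) z, fderiv ℝ (fun z => φ z * ev8 R z) z
        ((((0 : ℝ) • 1 + mat w : V →L[ℝ] V).prodMap ((0 : ℝ) • 1 + mat w)) z) =
        Xf w φ z * ev8 R z + 1 * (φ z * ev8 (om w R) z) := fun R z => by
      rw [e0, mul_der hφ, ev8_om]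
      rfl
    simp only [e, tau_lin c h (dm _ hX) (dm _ hφ)] at k
    simp only [one_mul, Complex.ofReal_zero, mul_zero, zero_mul] at k
    have s := Finset.sum_eq_zero (s := Finset.univ) fun I _ => Finset.sum_eq_zero
      (s := Finset.univ) fun J _ => Finset.sum_eq_zero (s := Finset.univ) fun K _ => k I J K I J K
    simp only [lam_eq, d6_om, tau_add c h hφ, tau_sum c _ h hφ, tau_C c h hφ,
      Finset.sum_add_distrib] at s ⊢
    rw [← s, add_assoc, sw4 fun I M J K => Red.l2 w I M * tau c ρ0 I J K fun z =>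
        φ z * ev8 (d6 M J K S) z,
      Finset.sum_congr rfl fun I _ => sw3 fun J M K => Red.l2 w J M * tau c ρ0 I J K fun z =>
        φ z * ev8 (d6 I M K S) z,
      Finset.sum_congr rfl fun I _ => Finset.sum_congr rfl fun J _ => Finset.sum_comm
        (f := fun K M => Red.l2 w K M * tau c ρ0 I J K fun z => φ z * ev8 (d6 I J M S) z)]
    simp only [add_assoc]
  · simp only [lam_eq, d6_s12, ev8_s12]
    rw [Finset.sum_comm]
    simp only [fun I J K => tau12 (I := J) (J := I) (K := K) hF h h1 (dm (d6 I J K S) hφ)]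
  · simp only [lam_eq, d6_s13, ev8_s13]
    rw [sw3 fun I K J => tau c ρ0 I J K fun z => φ (z.2, z.1) * ev8 (d6 K J I S) (z.2, z.1)]
    simp only [fun I J K => tau13 (c := c) (I := K) (J := J) (K := I) h (dm (d6 I J K S) hφ)]

end

end Vale.Agent.P352X.RS
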