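import Vale.Agent.P352X.R.RES.RedA
import Vale.Agent.P352X.R.LIE

/-!
# P352X, block RES: infinitesimal covariance of the three point distribution
-/

set_option linter.all false

open MeasureTheory Filter Topology
open scoped SchwartzMap ContDiff

namespace Vale.Agent.P352X.RS.Red

open Vale.Agent.P352 Vale.Agent.P352.GF

noncomputable section

section
variable {E : Type*} [NormedAddCommGroup E] [NormedSpace ℝ E] {F G : E → ℂ}

theorem sch_app (h : Dc F) (x : E) : sch F x = F x := by
  have k : ∃ G : 𝓢(E, ℂ), ∀ x, G x = F x := ⟨h.2.toSchwartzMap h.1, fun _ => rfl⟩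
  rw [sch, dif_pos k]
  exact k.choose_spec x

theorem dc_mul (h : Dc F) (h' : ContDiff ℝ ∞ G) : Dc fun x => F x * G x :=
  ⟨h.1.mul h', h.2.mul_right⟩

theorem dc_lin (h : Dc F) (h' : Dc G) (a : ℂ) : Dc fun x => F x + a * G x :=
  ⟨h.1.add (contDiff_const.mul h'.1), h.2.add h'.2.mul_left⟩

theorem sch_lin (h : Dc F) (h' : Dc G) (a : ℂ) :
    sch (fun x => F x + a * G x) = sch F + a • sch G := by
  ext x
  simp [sch_app (dc_lin h h' a), sch_app h, sch_app h']

theorem dc_der (h : Dc F) (A : E →L[ℝ] E) : Dc fun x => fderiv ℝ F x (A x) :=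
  ⟨(h.1.fderiv_right (m := ∞) le_rfl).clm_apply A.contDiff,
    (h.2.fderiv ℝ).mono fun x k e => k (by simp [e])⟩

theorem dc_inj [FiniteDimensional ℝ E] {E' : Type*} [NormedAddCommGroup E'] [NormedSpace ℝ E']
    {F : E' → ℂ} (h : Dc F) (A : E →L[ℝ] E') (hA : ∀ z, A z = 0 → z = 0) : Dc fun z => F (A z) :=
  ⟨h.1.comp A.contDiff, h.2.comp_isClosedEmbedding (LinearMap.isClosedEmbedding_of_injective
    (f := A.toLinearMap) (LinearMap.ker_eq_bot'.2 hA))⟩

theorem dc_prod {E' : Type*} [NormedAddCommGroup E'] [NormedSpace ℝ E'] {G : E' → ℂ} (h : Dc F)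
    (h' : Dc G) : Dc fun y : E × E' => F y.1 * G y.2 :=
  ⟨h.1.fst'.mul h'.1.snd', .intro (h.2.isCompact.prod h'.2.isCompact) fun y hy =>
    (not_and_or.1 hy).elim (fun k => by rw [image_eq_zero_of_notMem_tsupport k, zero_mul])
      fun k => by rw [image_eq_zero_of_notMem_tsupport k, mul_zero]⟩

theorem dc_comp [FiniteDimensional ℝ E] (h : Dc F) {A : E →L[ℝ] E} (hA : ‖A - 1‖ < 1) :
    Dc fun x => F (A x) := dc_inj h A fun x hx => by
  have k := (A - 1).le_opNorm x
  rw [ContinuousLinearMap.sub_apply, hx, zero_sub, norm_neg] at k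
  exact norm_eq_zero.1 (le_antisymm (by
    change ‖x‖ ≤ _ at k
    nlinarith [norm_nonneg x]) (norm_nonneg x))

end

/-- matrices as linear maps -/
def mat : (Ix → V) →L[ℝ] V →L[ℝ] V :=
  ∑ m, ContinuousLinearMap.smulRightL ℝ V V (.proj m) ∘L .proj m

theorem mat_app (L : Ix → V) (x : V) : mat L x = ∑ m, x m • L m := by simp [mat]

theorem sim_mat (s : ℝ) (L : Ix → V) (x : V) : sim s L 0 x = s • mat L x := by
  funext n
  simp [sim, mat_app]

theorem mat_one : mat GF.one = 1 := by
  ext x n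
  simp [mat_app, GF.one, bas]

theorem mat_bas (L : Ix → V) (m : Ix) : mat L (bas m 1) = L m := by
  simp [mat_app, bas]

/-- the one parameter group of an infinitesimal Lorentz transformation -/
theorem ex_flow {w : Ix → V} (hw : So w) :
    ∃ L : ℝ → Ix → V, HasDerivAt L w 0 ∧ L 0 = GF.one ∧ ∀ᶠ t in 𝓝 (0 : ℝ), IsLor (L t) := by
  let g : ℝ → V →L[ℝ] V := fun t => NormedSpace.exp (t • mat w)
  have hg : ∀ t x, HasDerivAt (fun t => g t x) (mat w (g t x)) t := fun t x => by
    simpa using (hasDerivAt_exp_smul_const' (mat w) t).clm_apply (hasDerivAt_const t x)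
  have g0 : ∀ x, g 0 x = x := fun x => by simp [g]
  have hL : HasDerivAt (fun t m => g t (bas m 1)) w 0 :=
    hasDerivAt_pi.2 fun m => by simpa only [g0, mat_bas] using hg 0 (bas m 1)
  have h1 : ∀ t x y, GF.mdot (g t x) (g t y) = GF.mdot x y := fun t x y => by
    have d : ∀ t, HasDerivAt (fun t => GF.mdot (g t x) (g t y)) 0 t := fun t => by
      refine (HasDerivAt.fun_sum fun m _ => ((hasDerivAt_pi.1 (hg t x) m).const_mul
        (eta m)).fun_mul (hasDerivAt_pi.1 (hg t y) m)).congr_deriv ?_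
      generalize g t x = a
      generalize g t y = b
      simp only [mat_app, Finset.sum_apply, Pi.smul_apply, smul_eq_mul, Finset.mul_sum,
        Finset.sum_mul, Finset.sum_add_distrib]
      rw [Finset.sum_comm, ← Finset.sum_add_distrib]
      refine Finset.sum_eq_zero fun m _ => ?_
      rw [← Finset.sum_add_distrib]
      exact Finset.sum_eq_zero fun n _ => by linear_combination a m * b n * hw m n
    rw [is_const_of_deriv_eq_zero (fun t => (d t).differentiableAt) (fun t => (d t).deriv) t 0,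
      g0, g0]
  have h2 : ∀ t m n, GF.mdot (g t (bas m 1)) (g t (bas n 1)) = bas m (eta m) n := fun t m n => by
    rw [h1]
    by_cases e : n = m <;> simp [GF.mdot, bas, e]
  have c0 : (fun m => g 0 (bas m 1)) = GF.one := funext fun m => g0 _
  refine ⟨_, hL, c0, ?_⟩
  have t := c0 ▸ hL.continuousAt.tendsto
  have o1 : Matrix.det GF.one = 1 := (congrArg Matrix.det (funext₂ fun m n => by
    simp [GF.one, bas, Matrix.one_apply, eq_comm])).trans Matrix.det_one
  filter_upwards [(((continuous_apply o).comp (continuous_apply o)).tendsto _ |>.comp t).eventually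
    (lt_mem_nhds (a := 0) (by simp [GF.one, bas])),
    (((continuous_id (X := Matrix Ix Ix ℝ)).matrix_det.tendsto _).comp t).eventually
    (lt_mem_nhds (a := 0) (one_pos.trans_eq o1.symm))] with s k1 k2
  refine ⟨h2 s, k1, ?_⟩
  set M : Matrix Ix Ix ℝ := fun m => g s (bas m 1)
  have e : M * Matrix.diagonal eta * M.transpose = Matrix.diagonal eta := by
    ext m n
    have := h2 s m n
    rw [Matrix.mul_apply]
    simp only [Matrix.mul_diagonal, Matrix.transpose_apply]
    refine Eq.trans (Finset.sum_congr rfl fun k _ => by rw [mul_comm (M m k)]) (this.trans ?_)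
    simp [bas, Matrix.diagonal_apply, eq_comm]
  have e' := congrArg Matrix.det e
  rw [Matrix.det_mul, Matrix.det_mul, Matrix.det_transpose, Matrix.det_diagonal,
    show ∏ i, eta i = -1 by simp [Fin.prod_univ_four, eta, o]] at e'
  change 0 < M.det at k2
  change M.det = 1
  nlinarith

/-- the diagonal action on three points -/
def tri : (V →L[ℝ] V) →L[ℝ] (V × V × V) →L[ℝ] V × V × V := LinearMap.toContinuousLinearMap
  { toFun := fun g => g.prodMap (g.prodMap g)
    map_add' := fun _ _ => ContinuousLinearMap.ext fun _ => rfl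
    map_smul' := fun _ _ => ContinuousLinearMap.ext fun _ => rfl }

theorem tri_app (g : V →L[ℝ] V) (z : V × V × V) : tri g z = (g z.1, g z.2.1, g z.2.2) := rfl

theorem L2_one (K I : I2) : L2 GF.one K I = if K = I then 1 else 0 := by
  obtain ⟨a, b⟩ := K
  obtain ⟨a', b'⟩ := I
  by_cases h : a = a' <;> by_cases h' : b = b' <;> simp [L2, GF.one, bas, h, h', eq_comm]

theorem L2_der {L : ℝ → Ix → V} {w : Ix → V} (h : HasDerivAt L w 0) (h0 : L 0 = GF.one) (K I : I2) :
    HasDerivAt (fun t => L2 (L t) K I) (l2 w K I) 0 := by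
  have k : ∀ m n, HasDerivAt (fun t => L t m n) (w m n) 0 :=
    fun m n => hasDerivAt_pi.1 (hasDerivAt_pi.1 h m) n
  simpa only [L2, l2, h0] using ((k K.1 I.1).fun_mul (k K.2 I.2)).ofReal_comp

variable {D : Type*} [NormedAddCommGroup D] [InnerProductSpace ℂ D] (c : Ctx D)

/-- infinitesimal covariance -/
theorem inf [Fact c.tp] {s : ℝ → ℝ} {L : ℝ → Ix → V} {s' : ℝ} {w : Ix → V} (hs : HasDerivAt s s' 0)
    (hL : HasDerivAt L w 0) (s0 : s 0 = 1) (L0 : L 0 = GF.one)
    (hI : ∀ᶠ t in 𝓝 (0 : ℝ), IsLor (L t)) {F : V × V × V → ℂ} (hF : Dc F)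
    (h : (∀ t, s t = 1) ∨ ∀ x, (x, x, x) ∉ tsupport F) (I J K : I2) :
    c.t I J K (sch fun z => fderiv ℝ F z (tri (s' • 1 + mat w) z)) +
      (∑ M, l2 w M I * c.t M J K (sch F) + ∑ M, l2 w M J * c.t I M K (sch F) +
        ∑ M, l2 w M K * c.t I J M (sch F)) = 0 := by
  have hg : HasDerivAt (fun t => tri (s t • mat (L t))) (tri (s' • 1 + mat w)) 0 :=
    tri.hasFDerivAt.comp_hasDerivAt 0 (by
      simpa [s0, L0, mat_one, add_comm] using hs.fun_smul (mat.hasFDerivAt.comp_hasDerivAt 0 hL))
  have g0 : tri (s 0 • mat (L 0)) = 1 := by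
    rw [s0, L0, mat_one, one_smul]
    rfl
  set Ft : ℝ → S3 := fun t => sch fun z => F (tri (s t • mat (L t)) z) with hFt
  have e1 : ∀ᶠ t in 𝓝 (0 : ℝ), ∀ z, Ft t z = F (tri (s t • mat (L t)) z) := by
    filter_upwards [(tendsto_iff_norm_sub_tendsto_zero.1 (g0 ▸ hg.continuousAt.tendsto)).eventually
      (gt_mem_nhds one_pos)] with t k using sch_app (dc_comp hF k)
  have F0 : Ft 0 = sch F := by simp only [hFt, g0, ContinuousLinearMap.one_apply]
  have e2 := Lie.der (a := fun _ => 0) (F := sch F) (Ft := Ft)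
    (F' := sch fun z => fderiv ℝ F z (tri (s' • 1 + mat w) z)) hg (hasDerivAt_const _ _) g0 rfl
    (e1.mono fun t k z => by rw [k, add_zero, sch_app hF]) fun z => by
      rw [sch_app (dc_der hF _), add_zero, show (sch F : _ → ℂ) = F from funext (sch_app hF)]
  have e3 : ∀ I J K, HasDerivAt (fun t => c.t I J K (Ft t))
      (c.t I J K (sch fun z => fderiv ℝ F z (tri (s' • 1 + mat w) z))) 0 := fun I J K =>
    hasDerivAt_iff_tendsto_slope_zero.2 ((((c.t I J K).continuous.tendsto _).comp e2).congr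
      fun t => by simp [F0])
  have e4 := HasDerivAt.fun_sum (u := Finset.univ) fun I' _ => HasDerivAt.fun_sum
    (u := Finset.univ) fun J' _ => HasDerivAt.fun_sum (u := Finset.univ) fun K' _ =>
      (((L2_der hL L0 I' I).fun_mul (L2_der hL L0 J' J)).fun_mul (L2_der hL L0 K' K)).fun_mul
        (e3 I' J' K')
  have e5 := (e4.unique ((hasDerivAt_const 0 (c.t I J K (sch F))).congr_of_eventuallyEq (by
    filter_upwards [e1, hI, hs.continuousAt.eventually (lt_mem_nhds (s0.symm ▸ one_pos))]
      with t k1 k2 k3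
    exact (c.hTP.cov (s t) (L t) 0 I J K (sch F) (Ft t) k3 k2 (fun x y z => by
      simp only [k1, sch_app hF, sim_mat, tri_app, ContinuousLinearMap.smul_apply])
      (h.imp (· t) fun k => by rwa [show (sch F : _ → ℂ) = F from funext (sch_app hF)])).symm)))
  rw [← e5]
  simp only [L0, L2_one, F0, add_mul, Finset.sum_add_distrib, ite_mul, mul_ite, one_mul, zero_mul,
    mul_one, mul_zero, Finset.sum_ite_eq', Finset.mem_univ, if_true, Finset.sum_ite_irrel,
    Finset.sum_const_zero]
  ring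

/-- integration by parts -/
theorem int_der {g : V → ℂ} (hg : Dc g) (A : V →L[ℝ] V) :
    ∫ y, fderiv ℝ g y (A y) = -(∑ n, (A (bas n 1) n : ℂ)) * ∫ y, g y := by
  have h1 : ∀ n, Dc fun y => fderiv ℝ g y (bas n 1) := fun n =>
    ⟨(hg.1.fderiv_right (m := ∞) le_rfl).clm_apply contDiff_const,
      (hg.2.fderiv ℝ).mono fun x k e => k (by simp [e])⟩
  let a : Ix → V →L[ℝ] ℂ := fun n => Complex.ofRealCLM ∘L .proj n ∘L A
  have I : ∀ {f : V → ℂ} (u : V → ℂ), Dc f → Continuous u → Integrable fun y => u y * f y :=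
    fun u k hu => (hu.mul k.1.continuous).integrable_of_hasCompactSupport k.2.mul_left
  have h2 : ∀ y, fderiv ℝ g y (A y) = ∑ n, a n y * fderiv ℝ g y (bas n 1) := fun y => by
    conv_lhs => rw [show A y = ∑ n, A y n • bas n 1 by
      funext m
      simp [bas], map_sum]
    simp [a]
  simp only [h2]
  rw [integral_finsetSum _ fun n _ => I _ (h1 n) (a n).continuous, neg_mul, Finset.sum_mul,
    ← Finset.sum_neg_distrib]
  refine Finset.sum_congr rfl fun n _ => ?_
  rw [integral_mul_fderiv_eq_neg_fderiv_mul_of_integrable (by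
      simpa only [(a n).fderiv] using I _ hg continuous_const) (I _ (h1 n) (a n).continuous)
    (I _ hg (a n).continuous) (fun _ _ => (a n).differentiableAt)
    fun x _ => hg.1.differentiable (by simp) x]
  simp only [(a n).fderiv, integral_const_mul]
  rfl

end

end Vale.Agent.P352X.RS.Red
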