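import Vale.Agent.P352X.Main0

/-!
# P352X, block RES: sub-rows

Sources are polynomials in five vectors `h1, h2, h3, u, v` (indices `0, 1, 2, 3, 4`); `h_j` is
contracted with the two (lower) indices of slot `j`, `u = z1 - z2`, `v = z3 - z2`.
-/

set_option linter.all false

open MeasureTheory Filter Topology
open scoped SchwartzMap ComplexConjugate ENNReal ContDiff

namespace Vale.Agent.P352X.RS

open Vale.Agent.P352 Vale.Agent.P352.GF Vale.Agent.P352.BW Vale.Agent.P352.H246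
open Vale.Agent.P352.H496 Vale.Agent.P352.H755 Vale.Agent.P352.H15
open UniformSpace (Completion)
open MvPolynomial (X C pderiv aeval)

noncomputable section

/-! ## algebra -/

abbrev P20 := MvPolynomial (Fin 5 × Ix) ℂ

/-- `x_j . x_k` -/
def dotP (j k : Fin 5) : P20 := ∑ m, C (eta m : ℂ) * X (j, m) * X (k, m)
/-- `a . x_j` -/
def linP (a : V) (j : Fin 5) : P20 := ∑ m, C ((eta m * a m : ℝ) : ℂ) * X (j, m)
/-- the source `η ⊗ a a ⊗ η Φ0` -/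
def S0 : P20 := dotP 0 0 * linP va 1 ^ 2 * dotP 2 2 *
  (X (3, 2) * X (4, 2) + X (3, 3) * X (4, 3)) * (linP vb 3 - linP vb 4) ^ 2
/-- homogeneous of degree `n` in `(u, v)` -/
def Deg (n : ℕ) (S : P20) : Prop :=
  S.IsWeightedHomogeneous (fun i : Fin 5 × Ix => if 3 ≤ i.1 then (1 : ℕ) else 0) n
/-- infinitesimal Lorentz transformations `z ↦ sim 1 w 0 z` -/
def So (w : Ix → V) : Prop := ∀ m n, eta n * w m n = -(eta m * w n m)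
/-- the action of a matrix on all five vectors -/
def om (w : Ix → V) (S : P20) : P20 :=
  ∑ j : Fin 5, ∑ m, ∑ n, C (w m n : ℂ) * X (j, m) * pderiv (j, n) S
/-- `z ↦ al a - be b` -/
def wH : Ix → V := ![![0, 1, 0, 0], ![1, 0, 0, 0], ![0, 0, 0, 0], ![0, 0, 0, 0]]
/-- exchange of the points 1 and 2 -/
def s12 : P20 →ₐ[ℂ] P20 := aeval fun i : Fin 5 × Ix =>
  ![X (1, i.2), X (0, i.2), X (2, i.2), -X (3, i.2), X (4, i.2) - X (3, i.2)] i.1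
/-- exchange of the points 1 and 3 -/
def s13 : P20 →ₐ[ℂ] P20 := aeval fun i : Fin 5 × Ix =>
  ![X (2, i.2), X (1, i.2), X (0, i.2), X (4, i.2), X (3, i.2)] i.1
def sym6 (S : P20) : P20 :=
  S + s12 S + s13 S + s12 (s13 S) + s13 (s12 S) + s12 (s13 (s12 S))
/-- the derivative with respect to `z2` -/
def D2 (m : Ix) (S : P20) : P20 := -(pderiv (3, m) S + pderiv (4, m) S)
def d1 (S : P20) : P20 := ∑ m, X (0, m) * pderiv (3, m) S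
def d2 (S : P20) : P20 := ∑ m, X (1, m) * D2 m S
def d3 (S : P20) : P20 := ∑ m, X (2, m) * pderiv (4, m) S
def box2 (S : P20) : P20 := ∑ m, C (eta m : ℂ) * D2 m (D2 m S)
def box3 (S : P20) : P20 := ∑ m, C (eta m : ℂ) * pderiv (4, m) (pderiv (4, m) S)
def dd2 (S : P20) : P20 := ∑ r, ∑ s, C ((eta r * eta s : ℝ) : ℂ) *
  D2 r (D2 s (pderiv (1, r) (pderiv (1, s) S)))
def dd3 (S : P20) : P20 := ∑ r, ∑ s, C ((eta r * eta s : ℝ) : ℂ) *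
  pderiv (4, r) (pderiv (4, s) (pderiv (2, r) (pderiv (2, s) S)))

/-- row ALG.1: the source is boost invariant -/
def ALG1 : Prop := Deg 4 S0 ∧ So wH ∧ om wH S0 = 0

/-- row ALG.2: the certificate -/
def ALG2 : Prop := ∃ (n : ℕ) (w : Fin n → Ix → V) (S : Fin n → P20) (Ξ3 ζ3 Ξ2 ζ2 : P20),
  (∀ i, So (w i) ∧ Deg 4 (S i)) ∧ Deg 5 Ξ3 ∧ Deg 6 ζ3 ∧ Deg 5 Ξ2 ∧ Deg 6 ζ2 ∧
  Ξ3 + d3 ζ3 = Ξ2 + d2 ζ2 ∧ box3 Ξ3 = 0 ∧ dd3 Ξ3 = 0 ∧ box2 Ξ2 = 0 ∧ dd2 Ξ2 = 0 ∧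
  sym6 (S0 - ∑ i, om (w i) (S i) - d1 (Ξ3 + d3 ζ3)) = 0

/-! ## the reduced distribution -/

/-- evaluation at `h = 0` -/
def ev8 (S : P20) (z : V × V) : ℂ :=
  aeval (fun i : Fin 5 × Ix => (![0, 0, 0, (z.1 i.2 : ℂ), (z.2 i.2 : ℂ)] i.1 : ℂ)) S
/-- the components of a source -/
def d6 (I J K : I2) (S : P20) : P20 := pderiv (0, I.1) (pderiv (0, I.2) (pderiv (1, J.1)
  (pderiv (1, J.2) (pderiv (2, K.1) (pderiv (2, K.2) S)))))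
/-- the Euler operator -/
def Ef {E : Type*} [NormedAddCommGroup E] [NormedSpace ℝ E] (φ : E → ℂ) (z : E) : ℂ :=
  fderiv ℝ φ z z
/-- linear vector fields -/
def Xf (w : Ix → V) (φ : V × V → ℂ) (z : V × V) : ℂ :=
  fderiv ℝ φ z (sim 1 w 0 z.1, sim 1 w 0 z.2)
/-- `∂ / ∂ u^m` -/
def du (m : Ix) (φ : V × V → ℂ) (z : V × V) : ℂ := fderiv ℝ φ z (bas m 1, 0)
/-- the divergence in the first slot, applied to `φ Ξ` -/
def Div (Λ : (V × V → ℂ) → P20 → ℂ) (φ : V × V → ℂ) (Ξ : P20) : ℂ :=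
  Λ φ (d1 Ξ) + ∑ m, Λ (du m φ) (X (0, m) * Ξ)

/-- linearity, homogeneity, invariance, symmetry -/
structure RD0 (Λ : (V × V → ℂ) → P20 → ℂ) : Prop where
  lin : ∀ φ ψ (a : ℂ) S, Dc φ → Dc ψ → Λ (fun z => φ z + a * ψ z) S = Λ φ S + a * Λ ψ S
  linS : ∀ φ (a : ℂ) S S', Dc φ → Λ φ (S + C a * S') = Λ φ S + a * Λ φ S'
  hom : ∀ φ n S, Dc φ → (0 : V × V) ∉ tsupport φ → Deg n S → Λ (Ef φ) S = (4 - n : ℂ) * Λ φ S
  inv : ∀ w φ S, So w → Dc φ → Λ (Xf w φ) S + Λ φ (om w S) = 0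
  s12 : ∀ φ S, Dc φ → Λ (fun z => φ (-z.1, z.2 - z.1)) (s12 S) = Λ φ S
  s13 : ∀ φ S, Dc φ → Λ (fun z => φ (z.2, z.1)) (s13 S) = Λ φ S

/-- the divergence vanishes away from `z1 = z2` and `z1 = z3` -/
def DIVC (Λ : (V × V → ℂ) → P20 → ℂ) : Prop := ∀ φ Ξ, Dc φ →
  tsupport φ ⊆ {z | z.1 ≠ 0 ∧ z.1 ≠ z.2} → Div Λ φ Ξ = 0

/-- the contact terms at `z1 = z2` -/
def DIVA (Λ : (V × V → ℂ) → P20 → ℂ) : Prop := ∀ θ : V → ℝ, Cut θ → ∃ ε > 0, ∀ χ : V → ℝ,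
  Cut χ → tsupport χ ⊆ Metric.ball 0 ε → ∀ Ξ3 ζ3, Deg 5 Ξ3 → Deg 6 ζ3 → box3 Ξ3 = 0 →
    dd3 Ξ3 = 0 → Div Λ (fun z => (χ z.1 : ℂ) * Ef (cx θ) z.2) (Ξ3 + d3 ζ3) = 0

/-- the residue of the flow `(0, 2 be, x)` vanishes -/
def RZ (Λ : (V × V → ℂ) → P20 → ℂ) : Prop := ∀ (Θ : V × V → ℂ) (κ : ℂ), Dc Θ →
  (∀ᶠ z in 𝓝 (0 : V × V), Θ z = κ) → Λ (fun z => Ef Θ z - Xf wH Θ z) S0 = 0

/-- row RES.coc -/
def COC : Prop := ∀ Λ, RD0 Λ → DIVC Λ → DIVA Λ → ALG1 → ALG2 → RZ Λ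

variable {D : Type*} [NormedAddCommGroup D] [InnerProductSpace ℂ D] (c : Ctx D)

/-- the reduced distribution -/
def Lam (ρ0 : V → ℝ) (φ : V × V → ℂ) (S : P20) : ℂ := ∑ I, ∑ J, ∑ K,
  c.t I J K (sch fun z : V × V × V => (ρ0 z.2.1 : ℂ) * (φ (z.1 - z.2.1, z.2.2 - z.2.1) *
    ev8 (d6 I J K S) (z.1 - z.2.1, z.2.2 - z.2.1)))

/-- fibre integration -/
def FIB : Prop := ∀ (ρ0 : V → ℝ) I J K (F : V × V × V → ℂ), Tst ρ0 → ∫ x, ρ0 x = 1 → Dc F →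
  Dc (fun z : V × V => ∫ y, F (y + z.1, y, y + z.2)) ∧
  c.t I J K (sch F) = c.t I J K (sch fun z : V × V × V =>
    (ρ0 z.2.1 : ℂ) * ∫ y, F (y + (z.1 - z.2.1), y, y + (z.2.2 - z.2.1)))

/-- the sub-rows of block RES -/
structure Rows : Prop where
  fib : T3 c → FIB c
  red : T3 c → FIB c → ∀ ρ0, Tst ρ0 → ∫ x, ρ0 x = 1 → RD0 (Lam c ρ0)
  divc : T3 c → ∀ ρ0, Tst ρ0 → ∫ x, ρ0 x = 1 → DIVC (Lam c ρ0)
  diva : T3 c → ∀ ρ0, Tst ρ0 → ∫ x, ρ0 x = 1 → DIVA (Lam c ρ0)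
  coc : COC
  alg1 : ALG1
  alg2 : ALG2
  link : T3 c → FIB c → (∀ ρ0, Tst ρ0 → ∫ x, ρ0 x = 1 → RZ (Lam c ρ0)) → RES c

theorem Rows.res {c : Ctx D} (r : Rows c) (t : T3 c) : RES c :=
  r.link t (r.fib t) fun ρ0 h1 h2 => r.coc _ (r.red t (r.fib t) ρ0 h1 h2) (r.divc t ρ0 h1 h2)
    (r.diva t ρ0 h1 h2) r.alg1 r.alg2

end

end Vale.Agent.P352X.RS
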